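import Vale.Agent.P155.NT276.Props

/-!
# P155, NT: `OneStep` from `T1P`, `CountP`, `US` (pigeonhole over annuli)
-/

namespace Vale.Agent.P155.NT276

open Finset Vale.Agent.P155 T802 T905 J NT Function Skel NT802

/-- **deterministic pigeonhole.** -/
theorem glue {near : ℕ → Pt → Prop} {g : ℕ → Pt} {e f : ℕ} {q : Pt} {h m K l : ℕ} {ρ : ℕ → ℕ}
    (hnear : ∀ a b, dn a b ≤ 1 → near h b → near (2 * h) a)
    (hstep : ∀ n, e ≤ n → n + 1 < f → dn (g n) (g (n + 1)) ≤ 1)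
    (hρ : ∀ i < m, ρ i + 2 ≤ ρ (i + 1)) (hl : ∀ i < m, ρ i + l ≤ ρ (i + 1))
    (he : ρ m < dn q (g e))
    (ht : ∃ n, e ≤ n ∧ n < f ∧ g n ∈ box q (ρ 0) ∧ near h (g n))
    (hfirst : ∀ i < m, ¬ ∃ n, e ≤ n ∧ n < f ∧ g n ∈ box q (ρ i) ∧ near h (g n) ∧
      ∀ n', e ≤ n' → n' < n → ¬ (g n' ∈ box q (ρ (i + 1)) ∧ near h (g n')))
    (Ps : ℕ → Prop) [DecidablePred Ps]
    (hPs : ∀ i, (∃ n, e ≤ n ∧ n < f ∧ g n ∈ box q (ρ (i + 1)) ∧ g n ∉ box q (ρ i) ∧
      ¬ near h (g n) ∧ near (2 * h) (g n)) → Ps i)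
    (hK : ((Finset.range m).filter Ps).card ≤ K) (hm : 3 * (K + 1) ≤ m) :
    ∃ n1 n2, e ≤ n1 ∧ n1 ≤ n2 ∧ n2 < f ∧
      (∀ n, n1 ≤ n → n ≤ n2 → g n ∈ box q (ρ m) ∧ near h (g n)) ∧ l ≤ dn (g n1) (g n2) := by
  classical
  -- the radii increase
  have hmono : ∀ i j, i ≤ j → j ≤ m → ρ i ≤ ρ j := by
    intro i j hij
    induction j, hij using Nat.le_induction with
    | base => intro _; exact le_rfl
    | succ j hj ih =>
      intro h1
      have := hρ j (by omega)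
      have := ih (by omega)
      omega
  -- a block of three annuli without passages
  obtain ⟨j, hj, hno⟩ : ∃ j ≤ K, ∀ i, 3 * j ≤ i → i < 3 * j + 3 → ¬ Ps i := by
    by_contra hc
    push Not at hc
    choose! p hp1 hp2 hp3 using hc
    have hinj : Set.InjOn p (Finset.range (K + 1)) := by
      intro a ha b hb hab
      have ha' : a ≤ K := by
        have := Finset.mem_range.1 (Finset.mem_coe.1 ha)
        omega
      have hb' : b ≤ K := by
        have := Finset.mem_range.1 (Finset.mem_coe.1 hb)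
        omega
      have h1 := hp1 a ha'
      have h2 := hp2 a ha'
      have h3 := hp1 b hb'
      have h4 := hp2 b hb'
      omega
    have hsub : (Finset.range (K + 1)).image p ⊆ (Finset.range m).filter Ps := by
      intro x hx
      obtain ⟨a, ha, rfl⟩ := Finset.mem_image.1 hx
      have ha' : a ≤ K := by
        have := Finset.mem_range.1 ha
        omega
      have h2 := hp2 a ha'
      refine Finset.mem_filter.2 ⟨Finset.mem_range.2 (by omega), hp3 a ha'⟩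
    have h1 := Finset.card_le_card hsub
    rw [Finset.card_image_of_injOn hinj, Finset.card_range] at h1
    omega
  -- the first touching in the middle annulus
  have hex : ∃ n, e ≤ n ∧ n < f ∧ g n ∈ box q (ρ (3 * j + 2)) ∧ near h (g n) := by
    obtain ⟨n, h1, h2, h3, h4⟩ := ht
    exact ⟨n, h1, h2, box_mono (hmono 0 (3 * j + 2) (by omega) (by omega)) h3, h4⟩
  obtain ⟨u, ⟨hu1, hu2, hu3, hu4⟩, humin⟩ : ∃ u, (e ≤ u ∧ u < f ∧ g u ∈ box q (ρ (3 * j + 2)) ∧
      near h (g u)) ∧ ∀ n < u, ¬ (e ≤ n ∧ n < f ∧ g n ∈ box q (ρ (3 * j + 2)) ∧ near h (g n)) :=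
    ⟨Nat.find hex, Nat.find_spec hex, fun n hn => Nat.find_min hex hn⟩
  have hu5 : g u ∉ box q (ρ (3 * j + 1)) := by
    intro hc
    refine hfirst (3 * j + 1) (by omega) ⟨u, hu1, hu2, hc, hu4, fun n' h1 h2 h3 => ?_⟩
    exact humin n' h2 ⟨h1, by omega, h3.1, h3.2⟩
  -- the beginning of the glued piece
  have hex2 : ∃ n, e ≤ n ∧ ∀ n', n ≤ n' → n' ≤ u →
      g n' ∈ box q (ρ (3 * j + 3)) ∧ near h (g n') := by
    refine ⟨u, hu1, fun n' h1 h2 => ?_⟩
    have : n' = u := le_antisymm h2 h1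
    subst this
    exact ⟨box_mono (hmono _ _ (by omega) (by omega)) hu3, hu4⟩
  obtain ⟨n1, ⟨hn1, hn2⟩, hnmin⟩ : ∃ n1, (e ≤ n1 ∧ ∀ n', n1 ≤ n' → n' ≤ u →
      g n' ∈ box q (ρ (3 * j + 3)) ∧ near h (g n')) ∧ ∀ n < n1, ¬ (e ≤ n ∧ ∀ n', n ≤ n' → n' ≤ u →
      g n' ∈ box q (ρ (3 * j + 3)) ∧ near h (g n')) :=
    ⟨Nat.find hex2, Nat.find_spec hex2, fun n hn => Nat.find_min hex2 hn⟩
  have hn1u : n1 ≤ u := by
    by_contra hc
    refine hnmin u (not_le.1 hc) ⟨hu1, fun n' h1 h2 => ?_⟩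
    have : n' = u := le_antisymm h2 h1
    subst this
    exact ⟨box_mono (hmono _ _ (by omega) (by omega)) hu3, hu4⟩
  have hne : n1 ≠ e := by
    rintro rfl
    have h1 := (hn2 n1 le_rfl hn1u).1
    rw [← J.dn_le_iff] at h1
    have := hmono (3 * j + 3) m (by omega) le_rfl
    omega
  obtain ⟨n0, rfl⟩ : ∃ n0, n1 = n0 + 1 := ⟨n1 - 1, by omega⟩
  have hn0 : ¬ (g n0 ∈ box q (ρ (3 * j + 3)) ∧ near h (g n0)) := by
    intro hc
    refine hnmin n0 (by omega) ⟨by omega, fun n' h1 h2 => ?_⟩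
    rcases Nat.eq_or_lt_of_le h1 with h3 | h3
    · rw [← h3]; exact hc
    · exact hn2 n' (by omega) h2
  have hst := hstep n0 (by omega) (by omega)
  by_cases hb : g n0 ∈ box q (ρ (3 * j + 3))
  · exfalso
    have hnn : ¬ near h (g n0) := fun h1 => hn0 ⟨hb, h1⟩
    have hnr := hnear _ _ hst (hn2 (n0 + 1) le_rfl hn1u).2
    have key : ∀ i, 3 * j ≤ i → i < 3 * j + 3 → g n0 ∈ box q (ρ (i + 1)) → g n0 ∈ box q (ρ i) := by
      intro i h1 h2 h3
      by_contra h4
      exact hno i h1 h2 (hPs i ⟨n0, by omega, by omega, h3, h4, hnn, hnr⟩)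
    have k1 := key (3 * j + 2) (by omega) (by omega) hb
    have k2 := key (3 * j + 1) (by omega) (by omega) k1
    have k3 := key (3 * j) (by omega) (by omega) k2
    rw [← J.dn_le_iff] at k3
    have h5 : dn q (g (n0 + 1)) ≤ ρ (3 * j + 1) := by
      have := G45.dn_tri q (g n0) (g (n0 + 1))
      have := hρ (3 * j) (by omega)
      omega
    have h6 : n0 + 1 = u := by
      by_contra h7
      exact humin (n0 + 1) (by omega) ⟨by omega, by omega,
        box_mono (hmono _ _ (by omega) (by omega)) (J.dn_le_iff.1 h5), (hn2 (n0 + 1) le_rfl hn1u).2⟩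
    rw [h6] at h5
    exact hu5 (J.dn_le_iff.1 h5)
  · refine ⟨n0 + 1, u, hn1, hn1u, hu2, fun n h1 h2 => ?_, ?_⟩
    · obtain ⟨h3, h4⟩ := hn2 n h1 h2
      exact ⟨box_mono (hmono _ _ (by omega) le_rfl) h3, h4⟩
    · rw [← J.dn_le_iff, not_le] at hb
      rw [← J.dn_le_iff] at hu3
      have h1 := G45.dn_tri q (g (n0 + 1)) (g n0)
      have h2 := G45.dn_tri q (g u) (g (n0 + 1))
      have h3 := hl (3 * j + 2) (by omega)
      rw [G45.dn_comm (g (n0 + 1)) (g n0)] at h1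
      rw [G45.dn_comm (g u) (g (n0 + 1))] at h2
      have h4 : 3 * j + 2 + 1 = 3 * j + 3 := rfl
      rw [h4] at h3
      omega

section

variable {xS : ℤ} {ω : Conf} {tm : ℕ → ℤ × ℕ} {M : ℕ} {q : Pt} {r : ℕ} {V : Finset Pt}

theorem dn_le_one_of_adj {u v : Pt} (h : Adj u v) : dn u v ≤ 1 := by
  have h1 := adj_coord h
  rw [T802.dn_le_iff]
  push_cast
  omega

/-- steps inside an excursion -/
theorem exc_step (W : Walk V xS ω tm M) (hω : ω ∈ DD V) (hr : 1 ≤ r)
    (hx : (16 * r : ℤ) ≤ |q.1 - xS|) {k n : ℕ} (h1 : eK xS ω tm M q r k ≤ n)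
    (h2 : n + 1 < xK xS ω tm M q r (k + 1)) :
    dn (pt' xS ω (tm n)) (pt' xS ω (tm (n + 1))) ≤ 1 := by
  have hM : xK xS ω tm M q r (k + 1) ≤ M := exi_le _
  rcases W.step n (by omega) with h3 | ⟨h3, h4⟩
  · exact absurd (W.start_out hr hx (n0 := n + 1) (t := 0) (k := k) (y := (tm (n + 1)).1)
      (Prod.ext rfl h3) rfl (by omega) h2) id
  · obtain ⟨hsV, _, hi⟩ := W.valid n (by omega)
    have h5 := go_adj' hω hsV hi
    unfold pt'
    rw [h3, h4]
    exact dn_le_one_of_adj h5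

/-- an excursion begins near the boundary of the box -/
theorem entry_dn (W : Walk V xS ω tm M) (hω : ω ∈ DD V) (hx : (16 * r : ℤ) ≤ |q.1 - xS|) {k : ℕ}
    (hk : eK xS ω tm M q r k < M) : 2 * r ≤ dn q (pt' xS ω (tm (eK xS ω tm M q r k))) := by
  by_cases h0 : (tm (eK xS ω tm M q r k)).2 = 0
  · have h1 : pt' xS ω (tm (eK xS ω tm M q r k)) = (xS, (tm (eK xS ω tm M q r k)).1) := by
      unfold pt'
      rw [h0, go0]
    rw [h1]
    have := dn_line (t := (tm (eK xS ω tm M q r k)).1) hx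
    omega
  · have hle : xK xS ω tm M q r k ≤ eK xS ω tm M q r k := exi_le_ent k
    rcases Nat.eq_or_lt_of_le hle with h1 | h1
    · rcases k with _ | k'
      · exfalso
        have h2 : xK xS ω tm M q r 0 = 0 := rfl
        rw [← h1, h2, W.zero] at h0
        exact h0 rfl
      · have h2 := exi_out (N := M) (g := fun n => pt' xS ω (tm n)) (q := q) (r0 := 2 * r)
          (R := 4 * r) (k := k') (by
            change xK xS ω tm M q r (k' + 1) < M
            omega)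
        rw [not_box] at h2
        change 4 * r < dn q (pt' xS ω (tm (xK xS ω tm M q r (k' + 1)))) at h2
        rw [h1] at h2
        omega
    · obtain ⟨n, hn⟩ : ∃ n, eK xS ω tm M q r k = n + 1 := ⟨eK xS ω tm M q r k - 1, by omega⟩
      have h2 := out_box (N := M) (g := fun n => pt' xS ω (tm n)) (q := q) (r0 := 2 * r)
        (R := 4 * r) (k := k) (i := n) (by
          change xK xS ω tm M q r k ≤ n
          omega) (by
          change n < eK xS ω tm M q r k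
          omega)
      rw [not_box] at h2
      rw [hn] at h0 ⊢
      rcases W.step n (by omega) with h3 | ⟨h3, h4⟩
      · exact absurd h3 h0
      · obtain ⟨hsV, _, hi⟩ := W.valid n (by omega)
        have h5 := dn_adj (q := q) (L.adj_symm (go_adj' hω hsV hi))
        have h6 : pt' xS ω (tm (n + 1)) = go ω (xS, (tm n).1) ((tm n).2 + 1) := by
          unfold pt'
          rw [h3, h4]
        rw [h6]
        change 2 * r < dn q (go ω (xS, (tm n).1) (tm n).2) at h2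
        omega

end

open Classical in
/-- **OneStep from T1, COUNT and US.** -/
theorem onestep_of (h1 : T1P) (h2 : CountP) (h3 : US) : OneStep := by
  intro c δ d ε hc hδ hd hε
  obtain ⟨C, hC, h2⟩ := h2 c δ d hc hδ hd
  obtain ⟨K, hK⟩ := exists_nat_ge (max 1 (3 * C / ε))
  have hK1 : (1 : ℝ) ≤ K := (le_max_left _ _).trans hK
  have hKC : C ≤ K * (ε / 3) := by
    have := (le_max_right _ _).trans hK
    rw [div_le_iff₀ hε] at this
    linarith
  have hK0 : (0 : ℝ) < K := by linarith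
  obtain ⟨m, hm⟩ : ∃ m : ℕ, m = 3 * (K + 1) := ⟨_, rfl⟩
  have hm1 : 1 ≤ m := by omega
  have hm0 : (0 : ℝ) < m := by exact_mod_cast (by omega : 0 < m)
  obtain ⟨ζ, hζ⟩ : ∃ ζ : ℝ, ζ = δ / (2 * m) := ⟨_, rfl⟩
  have hζ0 : 0 < ζ := by rw [hζ]; positivity
  obtain ⟨η1, hη1, h1⟩ := h1 c (δ / 4) d ζ (ε / (3 * m)) hc (by positivity) hd hζ0 (by positivity)
  obtain ⟨η2, hη2, h2⟩ := h2 m hm1
  obtain ⟨η3, hη3, h3⟩ := h3 c (δ / 4) d ζ (ε / 3) hc (by positivity) hd hζ0 (by positivity)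
  obtain ⟨η, hη⟩ : ∃ η : ℝ, η = min η1 (min η2 η3) := ⟨_, rfl⟩
  have hη0 : 0 < η := by rw [hη]; exact lt_min hη1 (lt_min hη2 hη3)
  obtain ⟨R1, h1⟩ := h1 η hη0 (by rw [hη]; exact min_le_left _ _)
  obtain ⟨R2, h2⟩ := h2 η hη0 (by rw [hη]; exact (min_le_right _ _).trans (min_le_left _ _))
  obtain ⟨R3, h3⟩ := h3 η hη0 (by rw [hη]; exact (min_le_right _ _).trans (min_le_right _ _))
  obtain ⟨R4, hR4⟩ := exists_nat_ge (max (1 / η) (max (2 / ζ) (max (1 / c) (4 * m / δ))))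
  refine ⟨η, hη0, max (max R1 R2) (max R3 (max R4 1)), ?_⟩
  intro R hR T hfit xS q r r1 r' k hcr hrR hx hrr' hr' hr1
  have hR1 : R1 ≤ R := (le_max_left _ _).trans ((le_max_left _ _).trans hR)
  have hR2 : R2 ≤ R := (le_max_right _ _).trans ((le_max_left _ _).trans hR)
  have hR3 : R3 ≤ R := (le_max_left _ _).trans ((le_max_right _ _).trans hR)
  have hR4' : R4 ≤ R := (le_max_left _ _).trans ((le_max_right _ _).trans ((le_max_right _ _).trans hR))
  have hR5 : 1 ≤ R := (le_max_right _ _).trans ((le_max_right _ _).trans ((le_max_right _ _).trans hR))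
  have hRr : (R4 : ℝ) ≤ R := by exact_mod_cast hR4'
  have hRp : (0 : ℝ) < R := by exact_mod_cast hR5
  have e1 : 1 ≤ η * R := by
    have := ((le_max_left _ _).trans hR4).trans hRr
    rw [div_le_iff₀ hη0] at this
    linarith
  have e2 : 2 ≤ ζ * R := by
    have := ((le_max_left _ _).trans ((le_max_right _ _).trans hR4)).trans hRr
    rw [div_le_iff₀ hζ0] at this
    linarith
  have e3 : 1 ≤ c * R := by
    have := ((le_max_left _ _).trans ((le_max_right _ _).trans ((le_max_right _ _).trans hR4))).trans hRr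
    rw [div_le_iff₀ hc] at this
    linarith
  have e4 : 4 * m ≤ δ * R := by
    have := ((le_max_right _ _).trans ((le_max_right _ _).trans ((le_max_right _ _).trans hR4))).trans hRr
    rw [div_le_iff₀ hδ] at this
    linarith
  have hr0 : 1 ≤ r := by
    have : (1 : ℝ) ≤ r := e3.trans hcr
    exact_mod_cast this
  obtain ⟨h, hh⟩ : ∃ h : ℕ, h = ⌊η * R⌋₊ := ⟨_, rfl⟩
  have hh1 : 1 ≤ h := by
    rw [hh]
    exact Nat.le_floor (by exact_mod_cast e1)
  obtain ⟨w, hw⟩ : ∃ w : ℕ, w = ⌈ζ * R⌉₊ := ⟨_, rfl⟩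
  have hw1 : ζ * R ≤ w := by rw [hw]; exact Nat.le_ceil _
  have hw2 : (w : ℝ) ≤ ζ * R + 1 := by rw [hw]; exact (Nat.ceil_lt_add_one (by positivity)).le
  have hw3 : 2 ≤ w := by
    have : (2 : ℝ) ≤ w := e2.trans hw1
    exact_mod_cast this
  set ρ : ℕ → ℕ := fun i => r' + i * w with hρ
  have hρs : ∀ i, ρ (i + 1) = ρ i + w := fun i => by simp only [hρ]; ring
  have hρm : (ρ m : ℝ) + δ / 4 * R ≤ r1 := by
    have e5 : (m : ℝ) * w ≤ m * (ζ * R + 1) := mul_le_mul_of_nonneg_left hw2 hm0.le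
    have e6 : (m : ℝ) * (ζ * R + 1) = δ / 2 * R + m := by
      rw [hζ]
      field_simp
    have e7 : (ρ m : ℝ) = r' + m * w := by simp only [hρ]; push_cast; ring
    rw [e7]
    nlinarith
  have hρle : ∀ i ≤ m, (ρ i : ℝ) + δ / 4 * R ≤ r1 := by
    intro i hi
    have e5 : ρ i ≤ ρ m := by
      simp only [hρ]
      have := Nat.mul_le_mul_right w hi
      omega
    have e6 : (ρ i : ℝ) ≤ ρ m := by exact_mod_cast e5
    linarith
  have hρ1 : ∀ i ≤ m, ρ i + 3 ≤ 2 * r := by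
    intro i hi
    have e5 := hρle i hi
    have e6 : (ρ i : ℝ) ≤ r1 := by nlinarith
    have e7 : ρ i ≤ r1 := by exact_mod_cast e6
    omega
  have hrρ : ∀ i, r ≤ ρ i := fun i => by simp only [hρ]; omega
  have hρr : ∀ i < m, (ρ i : ℝ) + ζ * R ≤ ρ (i + 1) := by
    intro i _
    rw [hρs]
    push_cast
    linarith
  rw [← hh]
  have h1 := h1 R hR1 T hfit xS q r r1
  have h2 := h2 R hR2 T hfit xS q r r1
  have h3 := h3 R hR3 T hfit xS q r r1
  rw [← hh] at h1 h2 h3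
  -- the three bad events
  have b1 : ∀ i ∈ Finset.range m, Pr T.V (fun ω => SepN T xS ω q r k r1 ⌊d * R⌋₊ ∧
      FirstIn T xS ω q r k (ρ i) (ρ (i + 1)) h) ≤ ε / (3 * m) := by
    intro i hi
    rw [Finset.mem_range] at hi
    exact h1 (ρ i) (ρ (i + 1)) k hcr hrR hx (hrρ i) (hρr i hi)
      (hρle (i + 1) (by omega)) hr1
  have b2 : Ex T.V (fun ω => if SepN T xS ω q r k r1 ⌊d * R⌋₊ then
      (((Finset.range m).filter (fun i =>
        Pass T xS ω q r k (ρ i) (ρ (i + 1)) h)).card : ℝ) else 0) ≤ C :=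
    h2 k ρ hcr hrR hx (hrρ 0) (by
      intro i hi
      have := hρr i hi
      rw [hζ] at this
      exact this) hρm hr1
  have b3 : Pr T.V (fun ω => SepN T xS ω q r k r1 ⌊d * R⌋₊ ∧
      Glued T xS ω q r k (ρ m) h ⌊ζ * R⌋₊) ≤ ε / 3 :=
    h3 (ρ m) k hcr hrR hx (hrρ m) hρm hr1
  have b2' := E.markov T.V (fun ω => if SepN T xS ω q r k r1 ⌊d * R⌋₊ then
      (((Finset.range m).filter (fun i =>
        Pass T xS ω q r k (ρ i) (ρ (i + 1)) h)).card : ℝ) else 0)
    (fun ω _ => by split_ifs <;> positivity) hK0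
  -- the inclusion of events
  have hincl : ∀ ω ∈ DD T.V, (SepN T xS ω q r k r1 ⌊d * R⌋₊ ∧ TouN T xS ω q r k r' h) →
      ((∃ i ∈ Finset.range m, SepN T xS ω q r k r1 ⌊d * R⌋₊ ∧
        FirstIn T xS ω q r k (ρ i) (ρ (i + 1)) h) ∨
      (K : ℝ) < (if SepN T xS ω q r k r1 ⌊d * R⌋₊ then
        (((Finset.range m).filter (fun i =>
          Pass T xS ω q r k (ρ i) (ρ (i + 1)) h)).card : ℝ) else 0)) ∨
      (SepN T xS ω q r k r1 ⌊d * R⌋₊ ∧ Glued T xS ω q r k (ρ m) h ⌊ζ * R⌋₊) := by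
    rintro ω hω ⟨hs, ht⟩
    by_contra hcon
    push Not at hcon
    obtain ⟨⟨c1, c2⟩, c3⟩ := hcon
    rw [if_pos hs] at c2
    have c2' : ((Finset.range m).filter (fun i =>
          Pass T xS ω q r k (ρ i) (ρ (i + 1)) h)).card ≤ K := by exact_mod_cast c2
    have W := walk hω xS
    have hlt := ht.lt
    refine c3 hs ?_
    obtain ⟨n1, n2, g1, g2, g3, g4, g5⟩ := glue
      (near := fun h p => ∃ a, a ∉ ON T xS ω q r k ∧ dn p a ≤ h)
      (g := gN T xS ω) (e := eN T xS ω q r k) (f := xN T xS ω q r k) (q := q) (h := h) (m := m)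
      (K := K) (l := ⌊ζ * R⌋₊) (ρ := ρ)
      (by
        rintro a b hab ⟨x, hx1, hx2⟩
        refine ⟨x, hx1, ?_⟩
        have := G45.dn_tri a b x
        omega)
      (fun n hn1 hn2 => exc_step W hω hr0 hx hn1 hn2)
      (fun i _ => by rw [hρs]; omega)
      (fun i _ => by
        rw [hρs, hw]
        have : ⌊ζ * R⌋₊ ≤ ⌈ζ * R⌉₊ := Nat.floor_le_ceil _
        omega)
      (by
        have := entry_dn W hω hx hlt
        have h5 := hρ1 m le_rfl
        change 2 * r ≤ dn q (gN T xS ω (eN T xS ω q r k)) at this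
        omega)
      (by
        obtain ⟨i, i1, i2, i3, i4⟩ := ht
        refine ⟨i, i1, i2, ?_, i4⟩
        have : ρ 0 = r' := by simp [hρ]
        rw [this]
        exact i3)
      (fun i hi hf => c1 i (Finset.mem_range.2 hi) hs hf)
      (fun i => Pass T xS ω q r k (ρ i) (ρ (i + 1)) h)
      (fun i hi => hi) c2' (by omega)
    exact ⟨n1, n2, g1, g2, g3, g4, g5⟩
  refine (E.Pr_mono hincl).trans ?_
  refine (E.Pr_or_le T.V _ _).trans ?_
  have t1 := E.Pr_or_le T.V (fun ω => ∃ i ∈ Finset.range m, SepN T xS ω q r k r1 ⌊d * R⌋₊ ∧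
        FirstIn T xS ω q r k (ρ i) (ρ (i + 1)) h)
    (fun ω => (K : ℝ) < (if SepN T xS ω q r k r1 ⌊d * R⌋₊ then
        (((Finset.range m).filter (fun i =>
          Pass T xS ω q r k (ρ i) (ρ (i + 1)) h)).card : ℝ) else 0))
  have t2 := E.Pr_exists_le_card T.V (Finset.range m) (fun i ω => SepN T xS ω q r k r1 ⌊d * R⌋₊ ∧
        FirstIn T xS ω q r k (ρ i) (ρ (i + 1)) h) b1
  rw [Finset.card_range] at t2
  have t3 : (m : ℝ) * (ε / (3 * m)) = ε / 3 := by field_simp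
  have t4 : (K : ℝ)⁻¹ * Ex T.V (fun ω => if SepN T xS ω q r k r1 ⌊d * R⌋₊ then
      (((Finset.range m).filter (fun i =>
        Pass T xS ω q r k (ρ i) (ρ (i + 1)) h)).card : ℝ) else 0) ≤ ε / 3 := by
    rw [inv_mul_le_iff₀ hK0]
    linarith
  linarith

end Vale.Agent.P155.NT276
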