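import Vale.Agent.P155.NT276.VBDef
import Vale.Agent.P155.NT276.Pigeon
import Vale.Agent.P155.NT12.Band
import Vale.Agent.P155.NT12.BandPot

/-!
# P155, NT: `CountP` from the visit bound `VBC` and the mass of the layer
-/

namespace Vale.Agent.P155.NT276

open Finset Vale.Agent.P155 T802 T905 J NT Function Skel NT802 NT905

/-! ### the grid -/

/-- the grid point with indices `i`, `j` -/
def xg (q : Pt) (κ : ℕ) (p : ℤ × ℤ) : Pt := (q.1 + (2 * κ + 1) * p.1, q.2 + (2 * κ + 1) * p.2)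

/-- the index of the cell of `z` -/
def cg (q : Pt) (κ : ℕ) (z : Pt) : ℤ × ℤ :=
  ((z.1 - q.1 + κ) / (2 * κ + 1), (z.2 - q.2 + κ) / (2 * κ + 1))

theorem cell1 {κ : ℕ} (t : ℤ) : |t - (2 * κ + 1) * ((t + κ) / (2 * κ + 1))| ≤ κ := by
  have h1 := Int.emod_add_mul_ediv (t + κ) (2 * κ + 1)
  have h2 := Int.emod_nonneg (t + κ) (show (2 * (κ : ℤ) + 1) ≠ 0 by omega)
  have h3 := Int.emod_lt_of_pos (t + κ) (show (0 : ℤ) < 2 * κ + 1 by omega)
  rw [abs_le]
  constructor <;> omega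

theorem dn_cg (q : Pt) (κ : ℕ) (z : Pt) : dn (xg q κ (cg q κ z)) z ≤ κ := by
  have h1 := cell1 (κ := κ) (z.1 - q.1)
  have h2 := cell1 (κ := κ) (z.2 - q.2)
  rw [abs_le] at h1 h2
  rw [G45.dn_eq]
  unfold xg cg
  simp only
  omega

theorem cell_unique {κ : ℕ} {t i : ℤ} (h : |t - (2 * κ + 1) * i| ≤ κ) :
    (t + κ) / (2 * κ + 1) = i := by
  rw [abs_le] at h
  rw [Int.ediv_eq_iff_of_pos (by omega)]
  constructor <;> nlinarith

theorem cg_unique {q : Pt} {κ : ℕ} {z : Pt} {p : ℤ × ℤ} (h : dn (xg q κ p) z ≤ κ) :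
    cg q κ z = p := by
  rw [G45.dn_eq] at h
  unfold xg at h
  simp only at h
  unfold cg
  refine Prod.ext ?_ ?_
  · apply cell_unique
    rw [abs_le]
    constructor <;> omega
  · apply cell_unique
    rw [abs_le]
    constructor <;> omega

/-! ### the explored set at the beginning of the excursion -/

section

variable (T : Temp) (xS : ℤ) (ω : Conf) (q : Pt) (r k : ℕ)

theorem E_eq : (tE T.V xS q r k).toStop.E ω =
    EK xS ω (Tm.tm T.V xS ω) (Tm.M T.V xS ω) q r k := by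
  rw [Tm.GTime.toStop_E, tE_N]
  rfl

theorem L_eq : (tE T.V xS q r k).toStop.L ω =
    LK xS ω (Tm.tm T.V xS ω) (Tm.M T.V xS ω) q r k := by
  unfold Stop.L
  rw [Tm.GTime.toStop_t, tE_N]
  rfl

theorem ON_eq : ON T xS ω q r k = OE T ((tE T.V xS q r k).toStop.E ω) := by
  unfold ON
  rw [E_eq]

end

/-! ### the event `Dx` -/

/-- the event that `x` is at height `(K κ, 8 K κ]`, near the walls of type `b` -/
def Dx (T : Temp) (xS : ℤ) (q : Pt) (r k r1 d K κ : ℕ) (x : Pt) (b : Bool) (ω : Conf) : Prop :=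
  (tE T.V xS q r k).N ω < Tm.M T.V xS ω ∧
  ((tE T.V xS q r k).toStop.New ω ∧ Sep T ω ((tE T.V xS q r k).toStop.L ω)
    ((tE T.V xS q r k).toStop.E ω) q r1 d) ∧
  (K * κ < dF (OE T ((tE T.V xS q r k).toStop.E ω)) x ∧
    dF (OE T ((tE T.V xS q r k).toStop.E ω)) x ≤ 8 * K * κ) ∧
  NT426.Seen (OE T ((tE T.V xS q r k).toStop.E ω)) (Pb T xS q r k b ω) q r1 (8 * K * κ) x

theorem at_Dx (T : Temp) (xS : ℤ) (q : Pt) (r k r1 d K κ : ℕ) (x : Pt) (b : Bool) :
    At (tE T.V xS q r k) (Dx T xS q r k r1 d K κ x b) := by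
  set τ := tE T.V xS q r k with hτ
  have h1 := (at_lt τ).comp₂ (fun a b => a ∧ b) (at_sep (T := T) τ q r1 d)
  have h2 := h1.comp₂ (fun (a : Prop) (E : Set Pt) => a ∧ (K * κ < dF (OE T E) x ∧
    dF (OE T E) x ≤ 8 * K * κ)) (at_En τ)
  have h3 : At τ (fun ω => NT426.Seen (OE T (Tm.En T.V xS ω (τ.N ω)))
      (fun a => if b then a ∈ {f : Pt | τ.toStop.New ω ∧ f ∉ OE T (τ.toStop.E ω) ∧
        surr ω (τ.toStop.L ω) f} else a ∉ {f : Pt | τ.toStop.New ω ∧ f ∉ OE T (τ.toStop.E ω) ∧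
        surr ω (τ.toStop.L ω) f}) q r1 (8 * K * κ) x) :=
    (at_En τ).comp₂ (fun E S => NT426.Seen (OE T E) (fun a => if b then a ∈ S else a ∉ S) q r1
      (8 * K * κ) x) (at_surr (T := T) τ)
  have h4 := h2.comp₂ (fun a b => a ∧ b) h3
  refine h4.congr fun ω _ => propext ?_
  unfold Dx
  rw [← hτ]
  constructor
  · rintro ⟨g1, g2, g3, g4⟩
    refine ⟨⟨⟨g1, g2⟩, g3⟩, ?_⟩
    refine (NT426.Seen.congr ?_).1 g4
    intro a ha
    have ha' : a ∉ OE T (τ.toStop.E ω) := ha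
    unfold Pb
    rw [← hτ]
    cases b
    · simp [g2.1, ha']
    · simp [g2.1, ha']
  · rintro ⟨⟨⟨g1, g2⟩, g3⟩, g4⟩
    refine ⟨g1, g2, g3, ?_⟩
    refine (NT426.Seen.congr ?_).2 g4
    intro a ha
    have ha' : a ∉ OE T (τ.toStop.E ω) := ha
    unfold Pb
    rw [← hτ]
    cases b
    · simp [g2.1, ha']
    · simp [g2.1, ha']

/-! ### a passage visits a box -/

/-- **a passage gives a visit** -/
theorem visit_of_pass {T : Temp} {xS : ℤ} {ω : Conf} (hω : ω ∈ DD T.V) {q : Pt}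
    {r k r1 d K κ h ra rb : ℕ} (hr : 1 ≤ r) (hx : (16 * r : ℤ) ≤ |q.1 - xS|) (hK : 16 ≤ K)
    (hκ : 400 ≤ κ) (h1 : (K + 8) * κ ≤ h) (h2 : h < (K + 8) * (κ + 1))
    (hr1 : rb + κ + 8 * K * κ ≤ r1) (hsep : SepN T xS ω q r k r1 d)
    (hp : Pass T xS ω q r k ra rb h) : ∃ (z : Pt) (b : Bool), ra < dn q z ∧ dn q z ≤ rb ∧
    Dx T xS q r k r1 d K κ (xg q κ (cg q κ z)) b ω ∧
    (∃ n, eN T xS ω q r k ≤ n ∧ n < xN T xS ω q r k ∧
      gN T xS ω n ∈ box (xg q κ (cg q κ z)) (3 * κ)) := by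
  obtain ⟨n, hn1, hn2, hn3, hn4, hn5, hn6⟩ := hp
  set z := gN T xS ω n with hz
  set x := xg q κ (cg q κ z) with hxdef
  have hxz : dn x z ≤ κ := dn_cg q κ z
  have hlt : (tE T.V xS q r k).N ω < Tm.M T.V xS ω := by
    rw [tE_N]
    have h3 : xN T xS ω q r k ≤ Tm.M T.V xS ω := exi_le _
    have h4 : eN T xS ω q r k ≤ n := hn1
    unfold eN at h4
    omega
  have hnew := tE_new hω hr hx hlt
  have hsep' : Sep T ω ((tE T.V xS q r k).toStop.L ω) ((tE T.V xS q r k).toStop.E ω) q r1 d := by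
    rw [L_eq, E_eq]
    exact hsep
  have hO := ON_eq T xS ω q r k
  have hOf : (OE T ((tE T.V xS q r k).toStop.E ω)).Finite := T802.OE_finite T _
  obtain ⟨y0, hy0⟩ := G45.exists_notMem hOf
  have hKκ : K * κ = K * κ := rfl
  have e1 : (K + 8) * κ = K * κ + 8 * κ := by ring
  have e2 : (K + 8) * (κ + 1) = K * κ + 8 * κ + K + 8 := by ring
  have e3 : 8 * K * κ = 8 * (K * κ) := by ring
  have e4 : 400 * K ≤ K * κ := by
    rw [mul_comm 400 K]
    exact Nat.mul_le_mul_left K hκ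
  have e5 : 16 * κ ≤ K * κ := Nat.mul_le_mul_right κ hK
  have hlow : K * κ < dF (OE T ((tE T.V xS q r k).toStop.E ω)) x := by
    obtain ⟨a, ha, hxa⟩ := H904.exists_dF ⟨y0, hy0⟩ x
    rw [← hxa]
    by_contra hc
    apply hn5
    refine ⟨a, by rw [hO]; exact ha, ?_⟩
    have h4 := G45.dn_tri z x a
    rw [G45.dn_comm z x] at h4
    change dn z a ≤ h
    omega
  have hup : dF (OE T ((tE T.V xS q r k).toStop.E ω)) x ≤ 8 * K * κ := by
    obtain ⟨a, ha, hza⟩ := hn6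
    rw [hO] at ha
    have h4 := H904.dF_le (x := x) ha
    have h5 := G45.dn_tri x z a
    change dn z a ≤ 2 * h at hza
    omega
  rw [← J.dn_le_iff] at hn3 hn4
  change dn q z ≤ rb at hn3
  change ¬ dn q z ≤ ra at hn4
  have hxO : x ∈ OE T ((tE T.V xS q r k).toStop.E ω) := by
    by_contra hc
    have := H904.dF_le (x := x) hc
    rw [G45.dn_self] at this
    omega
  have hqx : dn q x + 8 * K * κ ≤ r1 := by
    have h4 := G45.dn_tri q z x
    rw [G45.dn_comm z x] at h4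
    omega
  obtain ⟨f', a, g1, g2, g3⟩ := NT426.near_seen ⟨y0, hy0⟩ hxO hup hqx
  have hvis : ∃ n, eN T xS ω q r k ≤ n ∧ n < xN T xS ω q r k ∧ gN T xS ω n ∈ box x (3 * κ) :=
    ⟨n, hn1, hn2, J.dn_le_iff.1 (by change dn x z ≤ 3 * κ; omega)⟩
  by_cases hs : surr ω ((tE T.V xS q r k).toStop.L ω) a
  · exact ⟨z, true, not_le.1 hn4, hn3, ⟨hlt, ⟨hnew, hsep'⟩, ⟨hlow, hup⟩,
      ⟨f', a, g1, g2, g3, by unfold Pb; exact hs⟩⟩, hvis⟩
  · exact ⟨z, false, not_le.1 hn4, hn3, ⟨hlt, ⟨hnew, hsep'⟩, ⟨hlow, hup⟩,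
      ⟨f', a, g1, g2, g3, by unfold Pb; exact hs⟩⟩, hvis⟩

/-! ### counting -/

/-- the index set of the grid -/
noncomputable def Jg (I : ℕ) : Finset (ℤ × ℤ) := Finset.Icc (-(I : ℤ)) I ×ˢ Finset.Icc (-(I : ℤ)) I

theorem cg_mem {q z : Pt} {κ I r1 : ℕ} (hz : dn q z ≤ r1) (hI : r1 ≤ κ * I) (hI1 : 1 ≤ I) :
    cg q κ z ∈ Jg I := by
  have h1 := dn_cg q κ z
  rw [G45.dn_eq] at h1 hz
  unfold xg at h1
  simp only at h1
  have h2 : κ * 1 ≤ κ * I := Nat.mul_le_mul_left κ hI1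
  have h3 : (((κ * I : ℕ) : ℤ)) = (κ : ℤ) * I := by push_cast; ring
  unfold Jg
  rw [Finset.mem_product, Finset.mem_Icc, Finset.mem_Icc]
  have key : ∀ i t : ℤ, |t - (2 * κ + 1) * i| ≤ κ → |t| ≤ κ * I → -(I : ℤ) ≤ i ∧ i ≤ I := by
    intro i t h4 h5
    rw [abs_le] at h4 h5
    have hκ0 : (0 : ℤ) ≤ κ := by omega
    have hI0 : (1 : ℤ) ≤ I := by omega
    constructor
    · by_contra hc
      have h6 : i ≤ -(I : ℤ) - 1 := by omega
      nlinarith [mul_nonneg hκ0 (show (0 : ℤ) ≤ I by omega)]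
    · by_contra hc
      have h6 : (I : ℤ) + 1 ≤ i := by omega
      nlinarith [mul_nonneg hκ0 (show (0 : ℤ) ≤ I by omega)]
  have a1 := key (cg q κ z).1 (z.1 - q.1) (by rw [abs_le]; constructor <;> omega)
    (by rw [abs_le, ← h3]; constructor <;> omega)
  have a2 := key (cg q κ z).2 (z.2 - q.2) (by rw [abs_le]; constructor <;> omega)
    (by rw [abs_le, ← h3]; constructor <;> omega)
  exact ⟨a1, a2⟩

/-- the index set of the grid points in `box q B` -/
noncomputable def JB (q : Pt) (κ I B : ℕ) : Finset (ℤ × ℤ) :=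
  (Jg I).filter (fun p => dn q (xg q κ p) ≤ B)

/-- the visit of the box around the grid point -/
def Vis (T : Temp) (xS : ℤ) (q : Pt) (r k κ : ℕ) (x : Pt) (ω : Conf) : Prop :=
  ∃ n, eN T xS ω q r k ≤ n ∧ n < xN T xS ω q r k ∧ gN T xS ω n ∈ box x (3 * κ)

open Classical in
/-- **the number of passages is at most twice the number of visited boxes** -/
theorem count_pt {T : Temp} {xS : ℤ} {ω : Conf} (hω : ω ∈ DD T.V) {q : Pt}
    {r k r1 d K κ h m I : ℕ} {ρ : ℕ → ℕ} (hr : 1 ≤ r) (hx : (16 * r : ℤ) ≤ |q.1 - xS|)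
    (hK : 16 ≤ K) (hκ : 400 ≤ κ) (h1 : (K + 8) * κ ≤ h) (h2 : h < (K + 8) * (κ + 1))
    (hρ : ∀ i < m, ρ i + 2 * κ ≤ ρ (i + 1)) (hr1 : ρ m + κ + 8 * K * κ ≤ r1)
    (hI : r1 ≤ κ * I) (hI1 : 1 ≤ I) :
    (if SepN T xS ω q r k r1 d then
      (((Finset.range m).filter (fun i => Pass T xS ω q r k (ρ i) (ρ (i + 1)) h)).card : ℝ)
      else 0) ≤
    2 * ∑ p ∈ JB q κ I (ρ m + κ), ∑ b : Bool, (if Dx T xS q r k r1 d K κ (xg q κ p) b ω ∧
      Vis T xS q r k κ (xg q κ p) ω then (1 : ℝ) else 0) := by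
  have hnn : ∀ p ∈ JB q κ I (ρ m + κ), 0 ≤ ∑ b : Bool, (if Dx T xS q r k r1 d K κ (xg q κ p) b ω ∧
      Vis T xS q r k κ (xg q κ p) ω then (1 : ℝ) else 0) := fun p _ =>
    Finset.sum_nonneg fun b _ => by split_ifs <;> norm_num
  split_ifs with hsep
  swap
  · exact mul_nonneg (by norm_num) (Finset.sum_nonneg hnn)
  -- the radii increase
  have hmono : ∀ i j, i ≤ j → j ≤ m → ρ i ≤ ρ j := by
    intro i j hij
    induction j, hij using Nat.le_induction with
    | base => intro _; exact le_rfl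
    | succ j hj ih =>
      intro h1
      have := hρ j (by omega)
      have := ih (by omega)
      omega
  set s := (Finset.range m).filter (fun i => Pass T xS ω q r k (ρ i) (ρ (i + 1)) h) with hs
  have hex : ∀ i ∈ s, ∃ (z : Pt) (b : Bool), ρ i < dn q z ∧ dn q z ≤ ρ (i + 1) ∧
      Dx T xS q r k r1 d K κ (xg q κ (cg q κ z)) b ω ∧
      Vis T xS q r k κ (xg q κ (cg q κ z)) ω := by
    intro i hi
    obtain ⟨hi1, hi2⟩ := Finset.mem_filter.1 hi
    rw [Finset.mem_range] at hi1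
    have h3 := hmono (i + 1) m (by omega) le_rfl
    exact visit_of_pass hω hr hx hK hκ h1 h2 (by omega) hsep hi2
  choose! z bb hz1 hz2 hz3 hz4 using hex
  set W := (JB q κ I (ρ m + κ)).filter (fun p => ∃ b : Bool, Dx T xS q r k r1 d K κ (xg q κ p) b ω ∧
      Vis T xS q r k κ (xg q κ p) ω) with hW
  have himg : s.image (fun i => cg q κ (z i)) ⊆ W := by
    intro p hp
    obtain ⟨i, hi, rfl⟩ := Finset.mem_image.1 hp
    have hi1 := Finset.mem_range.1 (Finset.mem_filter.1 hi).1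
    have h3 := hmono (i + 1) m (by omega) le_rfl
    have h5 : dn q (z i) ≤ r1 := by
      have := hz2 i hi
      omega
    have h6 : dn q (xg q κ (cg q κ (z i))) ≤ ρ m + κ := by
      have g1 := hz2 i hi
      have g2 := dn_cg q κ (z i)
      have g3 := G45.dn_tri q (z i) (xg q κ (cg q κ (z i)))
      rw [G45.dn_comm (z i)] at g3
      omega
    exact Finset.mem_filter.2 ⟨Finset.mem_filter.2 ⟨cg_mem h5 hI hI1, h6⟩, bb i, hz3 i hi, hz4 i hi⟩
  have hcard : s.card ≤ 2 * (s.image (fun i => cg q κ (z i))).card := by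
    apply Finset.card_le_mul_card_image
    intro a _
    by_contra hc
    rw [not_le, Finset.two_lt_card] at hc
    obtain ⟨i, hi, j, hj, l, hl, hij, hil, hjl⟩ := hc
    have key : ∀ i ∈ s.filter (fun x => cg q κ (z x) = a), ∀ j ∈ s.filter (fun x => cg q κ (z x) = a),
        i + 2 ≤ j → False := by
      intro i hi j hj hij
      obtain ⟨hi1, hi2⟩ := Finset.mem_filter.1 hi
      obtain ⟨hj1, hj2⟩ := Finset.mem_filter.1 hj
      have hj3 := Finset.mem_range.1 (Finset.mem_filter.1 hj1).1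
      have g1 := hz2 i hi1
      have g2 := hz1 j hj1
      have g3 := hρ (i + 1) (by omega)
      have g4 := hmono (i + 2) j hij (by omega)
      have g5 := dn_cg q κ (z i)
      have g6 := dn_cg q κ (z j)
      rw [hi2] at g5
      rw [hj2] at g6
      have g7 := G45.dn_tri q (z i) (xg q κ a)
      have g8 := G45.dn_tri q (xg q κ a) (z j)
      rw [G45.dn_comm (z i) (xg q κ a)] at g7
      have g9 : i + 1 + 1 = i + 2 := rfl
      rw [g9] at g3
      omega
    have k1 : ¬ i + 2 ≤ j := fun h => key i hi j hj h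
    have k2 : ¬ j + 2 ≤ i := fun h => key j hj i hi h
    have k3 : ¬ i + 2 ≤ l := fun h => key i hi l hl h
    have k4 : ¬ l + 2 ≤ i := fun h => key l hl i hi h
    have k5 : ¬ j + 2 ≤ l := fun h => key j hj l hl h
    have k6 : ¬ l + 2 ≤ j := fun h => key l hl j hj h
    omega
  have h3 : (s.card : ℝ) ≤ 2 * (W.card : ℝ) := by
    have := hcard.trans (Nat.mul_le_mul_left 2 (Finset.card_le_card himg))
    exact_mod_cast this
  refine h3.trans (mul_le_mul_of_nonneg_left ?_ (by norm_num))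
  have h4 : (W.card : ℝ) = ∑ p ∈ W, (1 : ℝ) := by simp
  rw [h4]
  calc ∑ _p ∈ W, (1 : ℝ) ≤ ∑ p ∈ W, ∑ b : Bool, (if Dx T xS q r k r1 d K κ (xg q κ p) b ω ∧
      Vis T xS q r k κ (xg q κ p) ω then (1 : ℝ) else 0) := by
        apply Finset.sum_le_sum
        intro p hp
        obtain ⟨_, b, hb⟩ := Finset.mem_filter.1 hp
        have h5 := Finset.single_le_sum (f := fun b : Bool =>
          (if Dx T xS q r k r1 d K κ (xg q κ p) b ω ∧
            Vis T xS q r k κ (xg q κ p) ω then (1 : ℝ) else 0))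
          (fun b _ => by split_ifs <;> norm_num) (Finset.mem_univ b)
        rw [if_pos hb] at h5
        exact h5
    _ ≤ _ := Finset.sum_le_sum_of_subset_of_nonneg (Finset.filter_subset _ _)
        (fun p hp _ => hnn p hp)

/-! ### the sum of the bumps -/

theorem sum_bump_le {F : Pt → ℝ} {q : Pt} {κ : ℕ} (hκ : 5 ≤ κ) (J' : Finset (ℤ × ℤ))
    (S : Finset Pt) (hF : ∀ y ∈ S, 0 ≤ F y)
    (hS : ∀ p ∈ J', ∀ y ∈ box (xg q κ p) κ, y ∈ S) :
    ∑ p ∈ J', ∑ y ∈ box (xg q κ p) κ, S743.bump κ (xg q κ p) y * F y ≤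
      16000000 / (κ : ℝ) ^ 2 * ∑ y ∈ S, F y := by
  classical
  have hdis : (J' : Set (ℤ × ℤ)).PairwiseDisjoint (fun p => box (xg q κ p) κ) := by
    intro p _ p' _ hpp
    rw [Function.onFun, Finset.disjoint_left]
    intro y hy hy'
    apply hpp
    rw [← cg_unique (J.dn_le_iff.2 hy), ← cg_unique (J.dn_le_iff.2 hy')]
  calc ∑ p ∈ J', ∑ y ∈ box (xg q κ p) κ, S743.bump κ (xg q κ p) y * F y
      ≤ ∑ p ∈ J', ∑ y ∈ box (xg q κ p) κ, 16000000 / (κ : ℝ) ^ 2 * F y := by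
        apply Finset.sum_le_sum
        intro p hp
        apply Finset.sum_le_sum
        intro y hy
        exact mul_le_mul_of_nonneg_right (S743.bump_le hκ _ _) (hF y (hS p hp y hy))
    _ = 16000000 / (κ : ℝ) ^ 2 * ∑ y ∈ J'.biUnion (fun p => box (xg q κ p) κ), F y := by
        rw [Finset.sum_biUnion hdis, Finset.mul_sum]
        apply Finset.sum_congr rfl
        intro p _
        rw [Finset.mul_sum]
    _ ≤ _ := by
        apply mul_le_mul_of_nonneg_left _ (by positivity)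
        apply Finset.sum_le_sum_of_subset_of_nonneg
        · intro y hy
          obtain ⟨p, hp, hy'⟩ := Finset.mem_biUnion.1 hy
          exact hS p hp y hy'
        · intro y hy _
          exact hF y hy

/-- a straight path -/
theorem conn_rect {S : Set Pt} {y : Pt} (n : ℕ) : ∀ x : Pt,
    (x.1 - y.1).natAbs + (x.2 - y.2).natAbs = n →
    (∀ w : Pt, min x.1 y.1 ≤ w.1 → w.1 ≤ max x.1 y.1 → min x.2 y.2 ≤ w.2 → w.2 ≤ max x.2 y.2 →
      w ∈ S) → Conn S x y := by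
  induction n with
  | zero =>
    intro x hx hS
    have : x = y := Prod.ext (by omega) (by omega)
    subst this
    exact Conn.refl (hS x (by omega) (by omega) (by omega) (by omega))
  | succ n ih =>
    intro x hx hS
    obtain ⟨x', hadj, hn', g1, g2, g3, g4⟩ : ∃ x' : Pt, Adj x x' ∧
        (x'.1 - y.1).natAbs + (x'.2 - y.2).natAbs = n ∧ min x.1 y.1 ≤ x'.1 ∧
        x'.1 ≤ max x.1 y.1 ∧ min x.2 y.2 ≤ x'.2 ∧ x'.2 ≤ max x.2 y.2 := by
      rcases lt_trichotomy x.1 y.1 with h1 | h1 | h1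
      · refine ⟨(x.1 + 1, x.2), ?_, ?_, ?_, ?_, ?_, ?_⟩
        · unfold Adj; simp
        all_goals simp only; omega
      · rcases lt_trichotomy x.2 y.2 with h2 | h2 | h2
        · refine ⟨(x.1, x.2 + 1), ?_, ?_, ?_, ?_, ?_, ?_⟩
          · unfold Adj; simp
          all_goals simp only; omega
        · omega
        · refine ⟨(x.1, x.2 - 1), ?_, ?_, ?_, ?_, ?_, ?_⟩
          · unfold Adj; simp
          all_goals simp only; omega
      · refine ⟨(x.1 - 1, x.2), ?_, ?_, ?_, ?_, ?_, ?_⟩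
        · unfold Adj; simp
        all_goals simp only; omega
    have h5 := ih x' hn' (fun w a1 a2 a3 a4 => hS w (by omega) (by omega) (by omega) (by omega))
    refine ⟨hS x (by omega) (by omega) (by omega) (by omega), ?_⟩
    exact Relation.ReflTransGen.head ⟨hadj, h5.1⟩ h5.2

/-- the type seen from a neighbouring point -/
theorem seen_near {O : Set Pt} {P : Pt → Prop} {q x y : Pt} {r1 m m' κ : ℕ}
    (hxy : dn x y ≤ κ) (hκ : κ < dF O x) (hm : m + 2 * κ ≤ m')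
    (hr : dn q x + κ ≤ r1) (h : NT426.Seen O P q r1 m x) : NT426.Seen O P q r1 m' y := by
  obtain ⟨f', a, h1, h2, h3, h4⟩ := h
  refine ⟨f', a, ?_, h2, h3, h4⟩
  have hyx : Conn {z | z ∈ O ∧ z ∈ box q r1 ∧ z ∈ box y m'} y x := by
    apply conn_rect _ y rfl
    intro w a1 a2 a3 a4
    have h5 : dn x w ≤ κ := by
      rw [G45.dn_eq] at hxy ⊢
      omega
    have h6 : dn y w ≤ κ := by
      rw [G45.dn_eq] at hxy ⊢
      omega
    refine ⟨?_, ?_, ?_⟩
    · by_contra hc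
      have := H904.dF_le (x := x) hc
      omega
    · rw [← J.dn_le_iff]
      have := G45.dn_tri q x w
      omega
    · rw [← J.dn_le_iff]
      omega
  have hxf : Conn {z | z ∈ O ∧ z ∈ box q r1 ∧ z ∈ box y m'} x f' := by
    refine Conn.mono ?_ h1
    rintro w ⟨w1, w2, w3⟩
    refine ⟨w1, w2, ?_⟩
    rw [← J.dn_le_iff] at w3 ⊢
    have := G45.dn_tri y x w
    rw [G45.dn_comm y x] at this
    omega
  exact ⟨hyx.1, hyx.2.trans hxf.2⟩

end Vale.Agent.P155.NT276
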