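import Vale.Agent.P155.NT276.Count

/-!
# P155, NT: `count_of : VBC → CountP`
-/

namespace Vale.Agent.P155.NT276

open Finset Vale.Agent.P155 T802 T905 J NT Function Skel NT802 NT905 Filter

section

variable {T : Temp} {xS : ℤ} {ω : Conf} {q : Pt} {r k : ℕ}

theorem Gb_harm (b : Bool) : ∀ x ∈ OE T ((tE T.V xS q r k).toStop.E ω),
    lap (Gb T xS q r k b ω) x = 0 := by
  intro x hx
  have h := ((tE T.V xS q r k).toStop.Hf_spec ω).1 x hx
  cases b
  · have e : Gb T xS q r k false ω = (tE T.V xS q r k).toStop.Hf ω := by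
      funext y
      simp [Gb]
    rw [e]
    exact h
  · have e : Gb T xS q r k true ω = fun y => 1 - (tE T.V xS q r k).toStop.Hf ω y := by
      funext y
      simp [Gb]
    rw [e]
    have : lap (fun y => 1 - (tE T.V xS q r k).toStop.Hf ω y) x =
        - lap ((tE T.V xS q r k).toStop.Hf ω) x := by unfold lap; ring
    rw [this, h, neg_zero]

theorem Gb_01 (b : Bool) (x : Pt) : 0 ≤ Gb T xS q r k b ω x ∧ Gb T xS q r k b ω x ≤ 1 := by
  have h0 := ((tE T.V xS q r k).toStop.Hf_spec ω).nonneg x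
  have h1 := ((tE T.V xS q r k).toStop.Hf_spec ω).le_one x
  unfold Gb
  split_ifs
  · constructor <;> linarith
  · exact ⟨h0, h1⟩

theorem Gb_bd (b : Bool) {a : Pt} (ha : a ∉ OE T ((tE T.V xS q r k).toStop.E ω))
    (hP : Pb T xS q r k b ω a) : Gb T xS q r k b ω a = 0 := by
  have h := ((tE T.V xS q r k).toStop.Hf_spec ω).2 a ha
  unfold Gb
  unfold Pb at hP
  unfold Stop.bd at h
  cases b
  · simp only [Bool.false_eq_true, if_false] at hP ⊢
    rw [h, if_neg hP]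
  · simp only [if_true] at hP ⊢
    rw [h, if_pos hP, sub_self]

theorem sepA_b {r1 d : ℕ} (b : Bool) (h : Sep T ω ((tE T.V xS q r k).toStop.L ω)
    ((tE T.V xS q r k).toStop.E ω) q r1 d) :
    NT426.SepA (OE T ((tE T.V xS q r k).toStop.E ω)) (Pb T xS q r k b ω) q r1 d := by
  have h1 : NT426.SepA (OE T ((tE T.V xS q r k).toStop.E ω))
      (fun a => surr ω ((tE T.V xS q r k).toStop.L ω) a) q r1 d := h
  intro z f f' c a a' ha ha' h2 h3
  have h4 := h1 z f f' c a a' ha ha' h2 h3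
  unfold Pb
  cases b
  · simp only [Bool.false_eq_true, if_false]
    exact not_congr h4
  · simp only [if_true]
    exact h4

open Classical in
/-- the points of the boxes are in the layer -/
theorem layer_mem {r1 d K κ B C1 a : ℕ} {x : Pt} {b : Bool} (hK : 16 ≤ K) (hκ : 400 ≤ κ)
    (hD : Dx T xS q r k r1 d K κ x b ω) (hB : dn q x ≤ B) (hr1 : B + κ ≤ r1)
    (ha : B + κ + C1 * (3 * (K * κ)) ≤ a) {y : Pt} (hy : y ∈ box x κ)
    (hO : (OE T ((tE T.V xS q r k).toStop.E ω)).Finite) :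
    y ∈ hO.toFinset.filter (fun y => dn q y + C1 * (3 * (K * κ)) ≤ a ∧
      dF (OE T ((tE T.V xS q r k).toStop.E ω)) y ≤ 4 * (3 * (K * κ)) ∧
      NT426.Seen (OE T ((tE T.V xS q r k).toStop.E ω)) (Pb T xS q r k b ω) q r1
        (4 * (3 * (K * κ))) y) := by
  obtain ⟨_, _, ⟨h1, h2⟩, h3⟩ := hD
  obtain ⟨y0, hy0⟩ := G45.exists_notMem hO
  rw [← J.dn_le_iff] at hy
  have e1 : 16 * κ ≤ K * κ := Nat.mul_le_mul_right κ hK
  have e3 : 8 * K * κ = 8 * (K * κ) := by ring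
  have hyO : y ∈ OE T ((tE T.V xS q r k).toStop.E ω) := by
    by_contra hc
    have := H904.dF_le (x := x) hc
    omega
  refine Finset.mem_filter.2 ⟨by rw [Set.Finite.mem_toFinset]; exact hyO, ?_, ?_, ?_⟩
  · have := G45.dn_tri q x y
    omega
  · have := H904.dF_lip ⟨y0, hy0⟩ y x
    rw [H904.dn_comm y x] at this
    omega
  · exact seen_near hy (by omega) (by omega) (by omega) h3

open Classical in
/-- the sum over the grid of the harmonic masses -/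
theorem sum_G_le {Cb : ℝ} {C1 : ℕ} (hCb : 0 ≤ Cb)
    (hband : ∀ (O : Set Pt) (hO : O.Finite), G45.CPr O →
      ∀ (P : Pt → Prop) (q : Pt) (r1 d a s D h : ℕ) (H : Pt → ℝ), NT426.SepA O P q r1 d →
      2 * D + 11 ≤ d → 16 ≤ s → 16 ≤ D → D ≤ s → a + s + (2 * D + 12) ≤ r1 → 1 ≤ h →
      C1 * h ≤ D → (∀ x ∈ O, lap H x = 0) → (∀ x, 0 ≤ H x ∧ H x ≤ 1) →
      (∀ b, b ∉ O → P b → dn q b ≤ a + s + 1 → H b = 0) →
      ∑ x ∈ hO.toFinset.filter (fun x => dn q x + C1 * h ≤ a ∧ dF O x ≤ 4 * h ∧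
        NT426.Seen O P q r1 (4 * h) x), H x ≤
        Cb * (h : ℝ) ^ 2 * ((2 * ((a : ℝ) + s) + 3) / D) ^ 2)
    (hω : ω ∈ DD T.V) {r1 d K κ B a D I : ℕ} (b : Bool) (hK : 16 ≤ K) (hκ : 400 ≤ κ)
    (hr1 : B + κ ≤ r1) (ha : B + κ + C1 * (3 * (K * κ)) ≤ a) (hd : 2 * D + 11 ≤ d)
    (hD : 16 ≤ D) (har : a + D + (2 * D + 12) ≤ r1) (hC1 : C1 * (3 * (K * κ)) ≤ D)
    {Y : ℝ} (hY : (2 * ((a : ℝ) + D) + 3) / D ≤ Y) :
    ∑ p ∈ JB q κ I B, (if Dx T xS q r k r1 d K κ (xg q κ p) b ω then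
      ∑ y ∈ box (xg q κ p) κ, S743.bump κ (xg q κ p) y * Gb T xS q r k b ω y else 0) ≤
      16000000 * (Cb * (9 * (K : ℝ) ^ 2) * Y ^ 2) := by
  have hκ0 : (0 : ℝ) < κ := by
    have : 0 < κ := by omega
    exact_mod_cast this
  have hD0 : (0 : ℝ) < D := by
    have : 0 < D := by omega
    exact_mod_cast this
  rw [← Finset.sum_filter]
  rcases ((JB q κ I B).filter (fun p => Dx T xS q r k r1 d K κ (xg q κ p) b ω)).eq_empty_or_nonempty
    with hemp | ⟨p0, hp0⟩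
  · rw [hemp, Finset.sum_empty]
    positivity
  have hsep := (Finset.mem_filter.1 hp0).2.2.1.2
  have hO : (OE T ((tE T.V xS q r k).toStop.E ω)).Finite := T802.OE_finite T _
  have h1 := sum_bump_le (F := Gb T xS q r k b ω) (q := q) (κ := κ) (by omega)
    ((JB q κ I B).filter (fun p => Dx T xS q r k r1 d K κ (xg q κ p) b ω))
    (hO.toFinset.filter (fun y => dn q y + C1 * (3 * (K * κ)) ≤ a ∧
      dF (OE T ((tE T.V xS q r k).toStop.E ω)) y ≤ 4 * (3 * (K * κ)) ∧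
      NT426.Seen (OE T ((tE T.V xS q r k).toStop.E ω)) (Pb T xS q r k b ω) q r1
        (4 * (3 * (K * κ))) y))
    (fun y _ => (Gb_01 b y).1)
    (fun p hp y hy => by
      obtain ⟨hp1, hp2⟩ := Finset.mem_filter.1 hp
      exact layer_mem hK hκ hp2 (Finset.mem_filter.1 hp1).2 hr1 ha hy hO)
  have hKκ : 1 ≤ 3 * (K * κ) := by
    have : 16 * 400 ≤ K * κ := Nat.mul_le_mul hK hκ
    omega
  have h2 := hband _ hO (Stop.cpr hω) (Pb T xS q r k b ω) q r1 d a D D (3 * (K * κ))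
    (Gb T xS q r k b ω) (sepA_b b hsep) hd (by omega) hD le_rfl har hKκ hC1 (Gb_harm b) (Gb_01 b)
    (fun a' ha' hP _ => Gb_bd b ha' hP)
  refine h1.trans ?_
  calc 16000000 / (κ : ℝ) ^ 2 * _
      ≤ 16000000 / (κ : ℝ) ^ 2 *
        (Cb * ((3 * (K * κ) : ℕ) : ℝ) ^ 2 * ((2 * ((a : ℝ) + D) + 3) / D) ^ 2) :=
        mul_le_mul_of_nonneg_left h2 (by positivity)
    _ = 16000000 * (Cb * (9 * (K : ℝ) ^ 2) * ((2 * ((a : ℝ) + D) + 3) / D) ^ 2) := by
        push_cast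
        field_simp
        ring
    _ ≤ _ := by
        have h3 : ((2 * ((a : ℝ) + D) + 3) / D) ^ 2 ≤ Y ^ 2 :=
          pow_le_pow_left₀ (by positivity) hY 2
        have h4 : 0 ≤ Cb * (9 * (K : ℝ) ^ 2) := by positivity
        nlinarith [mul_le_mul_of_nonneg_left h3 h4]

open Classical in
/-- the sum over the grid of the far terms -/
theorem sum_v_le {Cp : ℝ}
    (hpot : ∀ (O : Set Pt) (hO : O.Finite), G45.CPr O →
      ∀ (h ρ : ℕ) (q : Pt) (v4 : Pt → ℝ), 1 ≤ h → 1 ≤ ρ →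
      IsGreen O (fun y => if dn q y ≤ 4 * ρ then ((ρ : ℝ) ^ 2)⁻¹ else 0) v4 →
      ∑ x ∈ hO.toFinset.filter (fun x => dF O x ≤ 4 * h), v4 x ≤ Cp * (h : ℝ) ^ 2)
    (hω : ω ∈ DD T.V) {r1 d K κ B I : ℕ} (b : Bool) (hr : 1 ≤ r) (hK : 16 ≤ K) (hκ : 400 ≤ κ)
    (hr1 : B + κ ≤ r1) :
    ∑ p ∈ JB q κ I B, (if Dx T xS q r k r1 d K κ (xg q κ p) b ω then
      ∑ y ∈ box (xg q κ p) κ, S743.bump κ (xg q κ p) y * S743.pot (ON T xS ω q r k)
        (fun z => if dn q z ≤ 4 * r then ((r : ℝ) ^ 2)⁻¹ else 0) y else 0) ≤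
      16000000 * (Cp * (9 * (K : ℝ) ^ 2)) := by
  have hκ0 : (0 : ℝ) < κ := by
    have : 0 < κ := by omega
    exact_mod_cast this
  have hO : (OE T ((tE T.V xS q r k).toStop.E ω)).Finite := T802.OE_finite T _
  obtain ⟨v4, hv4⟩ : ∃ v4, v4 = S743.pot (ON T xS ω q r k)
        (fun z => if dn q z ≤ 4 * r then ((r : ℝ) ^ 2)⁻¹ else 0) := ⟨_, rfl⟩
  have hg : IsGreen (OE T ((tE T.V xS q r k).toStop.E ω))
      (fun z => if dn q z ≤ 4 * r then ((r : ℝ) ^ 2)⁻¹ else 0) v4 := by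
    rw [hv4, ON_eq]
    exact S743.pot_spec hO _
  have hv0 : ∀ y, 0 ≤ v4 y := G45.green_nonneg hO hg (fun y _ => by split_ifs <;> positivity)
  rw [← hv4, ← Finset.sum_filter]
  have h1 := sum_bump_le (F := v4) (q := q) (κ := κ) (by omega)
    ((JB q κ I B).filter (fun p => Dx T xS q r k r1 d K κ (xg q κ p) b ω))
    (hO.toFinset.filter (fun y =>
      dF (OE T ((tE T.V xS q r k).toStop.E ω)) y ≤ 4 * (3 * (K * κ))))
    (fun y _ => hv0 y)
    (fun p hp y hy => by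
      obtain ⟨hp1, hp2⟩ := Finset.mem_filter.1 hp
      have h2 := layer_mem (C1 := 0) (a := B + κ) hK hκ hp2 (Finset.mem_filter.1 hp1).2 hr1
        (by omega) hy hO
      obtain ⟨h3, _, h4, _⟩ := Finset.mem_filter.1 h2
      exact Finset.mem_filter.2 ⟨h3, h4⟩)
  have hKκ : 1 ≤ 3 * (K * κ) := by
    have : 16 * 400 ≤ K * κ := Nat.mul_le_mul hK hκ
    omega
  have h2 := hpot _ hO (Stop.cpr hω) (3 * (K * κ)) r q v4 hKκ hr hg
  refine h1.trans ?_
  calc 16000000 / (κ : ℝ) ^ 2 * _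
      ≤ 16000000 / (κ : ℝ) ^ 2 * (Cp * ((3 * (K * κ) : ℕ) : ℝ) ^ 2) :=
        mul_le_mul_of_nonneg_left h2 (by positivity)
    _ = 16000000 * (Cp * (9 * (K : ℝ) ^ 2)) := by
        push_cast
        field_simp
        ring

end

theorem Jg_card (I : ℕ) : (Jg I).card = (2 * I + 1) ^ 2 := by
  unfold Jg
  rw [Finset.card_product, Int.card_Icc]
  have : ((I : ℤ) + 1 - -(I : ℤ)).toNat = 2 * I + 1 := by omega
  rw [this]
  ring

open Classical in
/-- the summation over the grid -/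
theorem count_prob {Cb Cp A : ℝ} {C1 : ℕ} (hCb : 0 ≤ Cb) (hCp : 0 ≤ Cp) (hA : 0 ≤ A)
    (hband : ∀ (O : Set Pt) (hO : O.Finite), G45.CPr O →
      ∀ (P : Pt → Prop) (q : Pt) (r1 d a s D h : ℕ) (H : Pt → ℝ), NT426.SepA O P q r1 d →
      2 * D + 11 ≤ d → 16 ≤ s → 16 ≤ D → D ≤ s → a + s + (2 * D + 12) ≤ r1 → 1 ≤ h →
      C1 * h ≤ D → (∀ x ∈ O, lap H x = 0) → (∀ x, 0 ≤ H x ∧ H x ≤ 1) →
      (∀ b, b ∉ O → P b → dn q b ≤ a + s + 1 → H b = 0) →
      ∑ x ∈ hO.toFinset.filter (fun x => dn q x + C1 * h ≤ a ∧ dF O x ≤ 4 * h ∧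
        NT426.Seen O P q r1 (4 * h) x), H x ≤
        Cb * (h : ℝ) ^ 2 * ((2 * ((a : ℝ) + s) + 3) / D) ^ 2)
    (hpot : ∀ (O : Set Pt) (hO : O.Finite), G45.CPr O →
      ∀ (h ρ : ℕ) (q : Pt) (v4 : Pt → ℝ), 1 ≤ h → 1 ≤ ρ →
      IsGreen O (fun y => if dn q y ≤ 4 * ρ then ((ρ : ℝ) ^ 2)⁻¹ else 0) v4 →
      ∑ x ∈ hO.toFinset.filter (fun x => dF O x ≤ 4 * h), v4 x ≤ Cp * (h : ℝ) ^ 2)
    {T : Temp} {xS : ℤ} {q : Pt} {r k r1 d K κ h m I D : ℕ} {ρ : ℕ → ℕ} {Nb : Conf → ℝ}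
    {ε' : ℝ} (hNb0 : ∀ ω ∈ DD T.V, 0 ≤ Nb ω) (hNbA : Ex T.V Nb ≤ A)
    (hV : ∀ (x : Pt) (b : Bool) (Dom : Conf → Prop),
      dn q x + 8 * K * κ + 4 ≤ 2 * r → At (tE T.V xS q r k) Dom →
      (∀ ω ∈ DD T.V, Dom ω → (tE T.V xS q r k).N ω < Tm.M T.V xS ω ∧
        K * κ < dF (ON T xS ω q r k) x ∧ dF (ON T xS ω q r k) x ≤ 8 * K * κ) →
      Pr T.V (fun ω => Dom ω ∧ ∃ n, eN T xS ω q r k ≤ n ∧ n < xN T xS ω q r k ∧
        gN T xS ω n ∈ box x (3 * κ)) ≤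
        A * Ex T.V (fun ω => if Dom ω then
          ∑ y ∈ box x κ, S743.bump κ x y * Gb T xS q r k b ω y else 0) + ε' +
        Ex T.V (fun ω => if Dom ω then
          Nb ω * ∑ y ∈ box x κ, S743.bump κ x y * S743.pot (ON T xS ω q r k)
            (fun z => if dn q z ≤ 4 * r then ((r : ℝ) ^ 2)⁻¹ else 0) y else 0))
    (hr : 1 ≤ r) (hx : (16 * r : ℤ) ≤ |q.1 - xS|) (hr1r : r1 + 3 ≤ 2 * r) (hK : 16 ≤ K)
    (hκ : 400 ≤ κ) (h1 : (K + 8) * κ ≤ h) (h2 : h < (K + 8) * (κ + 1))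
    (hwid : ∀ i < m, ρ i + 2 * κ ≤ ρ (i + 1)) (hB1 : ρ m + κ + 8 * K * κ + 2 ≤ r1)
    (hI : r1 ≤ κ * I) (hI1 : 1 ≤ I) (hd : 2 * D + 11 ≤ d) (hD16 : 16 ≤ D)
    (har : ρ m + D + D + (2 * D + 12) ≤ r1) (hC1D : C1 * (3 * (K * κ)) + 2 * κ ≤ D) {Y : ℝ}
    (hYr : (2 * (((ρ m + D : ℕ) : ℝ) + D) + 3) / D ≤ Y) (hε' : ε' * (2 * ((Jg I).card : ℝ)) ≤ 1)
    (hε'0 : 0 ≤ ε') :
    Ex T.V (fun ω => if SepN T xS ω q r k r1 d then
      (((Finset.range m).filter (fun i => Pass T xS ω q r k (ρ i) (ρ (i + 1)) h)).card : ℝ)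
      else 0) ≤ 2 * (2 * (A * (16000000 * (Cb * (9 * (K : ℝ) ^ 2) * Y ^ 2)) + 1 / 2 +
        16000000 * (Cp * (9 * (K : ℝ) ^ 2)) * A)) := by
  -- the counting
  have hcount : ∀ ω ∈ DD T.V, (if SepN T xS ω q r k r1 d then
      (((Finset.range m).filter (fun i => Pass T xS ω q r k (ρ i) (ρ (i + 1)) h)).card : ℝ)
      else 0) ≤
    2 * ∑ p ∈ JB q κ I (ρ m + κ), ∑ b : Bool,
      (if Dx T xS q r k r1 d K κ (xg q κ p) b ω ∧
      Vis T xS q r k κ (xg q κ p) ω then (1 : ℝ) else 0) := fun ω hω =>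
    count_pt hω hr hx hK hκ h1 h2 hwid (by omega) hI hI1
  refine (J.Ex_mono hcount).trans ?_
  rw [Ex_eq_avg, avg_mul_left]
  apply mul_le_mul_of_nonneg_left _ (by norm_num : (0 : ℝ) ≤ 2)
  rw [avg_sum]
  have hb : ∀ p ∈ JB q κ I (ρ m + κ), ∀ b : Bool,
      avg (DD T.V) (fun ω => if Dx T xS q r k r1 d K κ (xg q κ p) b ω ∧
        Vis T xS q r k κ (xg q κ p) ω then (1 : ℝ) else 0) ≤
      A * Ex T.V (fun ω => if Dx T xS q r k r1 d K κ (xg q κ p) b ω then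
        ∑ y ∈ box (xg q κ p) κ, S743.bump κ (xg q κ p) y * Gb T xS q r k b ω y else 0) + ε' +
      Ex T.V (fun ω => if Dx T xS q r k r1 d K κ (xg q κ p) b ω then
        Nb ω * ∑ y ∈ box (xg q κ p) κ, S743.bump κ (xg q κ p) y * S743.pot (ON T xS ω q r k)
          (fun z => if dn q z ≤ 4 * r then ((r : ℝ) ^ 2)⁻¹ else 0) y else 0) := by
    intro p hp b
    have hq := (Finset.mem_filter.1 hp).2
    have h3 := hV (xg q κ p) b (Dx T xS q r k r1 d K κ (xg q κ p) b)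
      (by omega) (at_Dx T xS q r k r1 _ K κ _ b) (fun ω _ hD => by
        obtain ⟨g1, _, g2, _⟩ := hD
        rw [ON_eq]
        exact ⟨g1, g2⟩)
    rw [E.Pr_eq_avg] at h3
    exact h3
  have hfin : ∀ b : Bool, ∑ p ∈ JB q κ I (ρ m + κ),
      (A * Ex T.V (fun ω => if Dx T xS q r k r1 d K κ (xg q κ p) b ω then
        ∑ y ∈ box (xg q κ p) κ, S743.bump κ (xg q κ p) y * Gb T xS q r k b ω y else 0) + ε' +
      Ex T.V (fun ω => if Dx T xS q r k r1 d K κ (xg q κ p) b ω then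
        Nb ω * ∑ y ∈ box (xg q κ p) κ, S743.bump κ (xg q κ p) y * S743.pot (ON T xS ω q r k)
          (fun z => if dn q z ≤ 4 * r then ((r : ℝ) ^ 2)⁻¹ else 0) y else 0)) ≤
      A * (16000000 * (Cb * (9 * (K : ℝ) ^ 2) * Y ^ 2)) + 1 / 2 +
        16000000 * (Cp * (9 * (K : ℝ) ^ 2)) * A := by
    intro b
    rw [Finset.sum_add_distrib, Finset.sum_add_distrib, ← Finset.mul_sum]
    refine add_le_add (add_le_add ?_ ?_) ?_
    · apply mul_le_mul_of_nonneg_left _ hA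
      have e : ∑ p ∈ JB q κ I (ρ m + κ),
          Ex T.V (fun ω => if Dx T xS q r k r1 d K κ (xg q κ p) b ω then
          ∑ y ∈ box (xg q κ p) κ, S743.bump κ (xg q κ p) y * Gb T xS q r k b ω y else 0) =
          Ex T.V (fun ω => ∑ p ∈ JB q κ I (ρ m + κ),
          if Dx T xS q r k r1 d K κ (xg q κ p) b ω then
          ∑ y ∈ box (xg q κ p) κ, S743.bump κ (xg q κ p) y * Gb T xS q r k b ω y else 0) := by
        simp only [Ex_eq_avg]
        rw [avg_sum]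
      rw [e]
      apply J.Ex_le_const (by positivity)
      intro ω hω
      exact sum_G_le hCb hband hω b hK hκ (by omega) (a := ρ m + D) (D := D) (by omega) hd
        hD16 har (by omega) hYr
    · rw [Finset.sum_const, nsmul_eq_mul]
      have h3 : ((JB q κ I (ρ m + κ)).card : ℝ) ≤ (Jg I).card := by
        exact_mod_cast Finset.card_le_card (Finset.filter_subset _ _)
      have h4 := mul_le_mul_of_nonneg_right h3 hε'0
      linarith
    · have e : ∑ p ∈ JB q κ I (ρ m + κ),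
          Ex T.V (fun ω => if Dx T xS q r k r1 d K κ (xg q κ p) b ω then
          Nb ω * ∑ y ∈ box (xg q κ p) κ, S743.bump κ (xg q κ p) y * S743.pot (ON T xS ω q r k)
          (fun z => if dn q z ≤ 4 * r then ((r : ℝ) ^ 2)⁻¹ else 0) y else 0) =
          Ex T.V (fun ω => ∑ p ∈ JB q κ I (ρ m + κ),
          if Dx T xS q r k r1 d K κ (xg q κ p) b ω then
          Nb ω * ∑ y ∈ box (xg q κ p) κ, S743.bump κ (xg q κ p) y * S743.pot (ON T xS ω q r k)
          (fun z => if dn q z ≤ 4 * r then ((r : ℝ) ^ 2)⁻¹ else 0) y else 0) := by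
        simp only [Ex_eq_avg]
        rw [avg_sum]
      rw [e]
      have h2 : Ex T.V (fun ω => ∑ p ∈ JB q κ I (ρ m + κ),
          if Dx T xS q r k r1 d K κ (xg q κ p) b ω then
          Nb ω * ∑ y ∈ box (xg q κ p) κ, S743.bump κ (xg q κ p) y * S743.pot (ON T xS ω q r k)
          (fun z => if dn q z ≤ 4 * r then ((r : ℝ) ^ 2)⁻¹ else 0) y else 0) ≤
          Ex T.V (fun ω => 16000000 * (Cp * (9 * (K : ℝ) ^ 2)) * Nb ω) := by
        apply J.Ex_mono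
        intro ω hω
        have h3 := sum_v_le (xS := xS) (q := q) (r := r) (k := k) hpot hω (r1 := r1)
          (d := d) (K := K) (κ := κ)
          (B := ρ m + κ) (I := I) b hr hK hκ (by omega)
        have h4 : ∑ p ∈ JB q κ I (ρ m + κ),
          (if Dx T xS q r k r1 d K κ (xg q κ p) b ω then
          Nb ω * ∑ y ∈ box (xg q κ p) κ, S743.bump κ (xg q κ p) y * S743.pot (ON T xS ω q r k)
          (fun z => if dn q z ≤ 4 * r then ((r : ℝ) ^ 2)⁻¹ else 0) y else 0) =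
          Nb ω * ∑ p ∈ JB q κ I (ρ m + κ),
          (if Dx T xS q r k r1 d K κ (xg q κ p) b ω then
          ∑ y ∈ box (xg q κ p) κ, S743.bump κ (xg q κ p) y * S743.pot (ON T xS ω q r k)
          (fun z => if dn q z ≤ 4 * r then ((r : ℝ) ^ 2)⁻¹ else 0) y else 0) := by
          rw [Finset.mul_sum]
          apply Finset.sum_congr rfl
          intro p _
          split_ifs
          · rfl
          · rw [mul_zero]
        rw [h4, mul_comm]
        exact mul_le_mul_of_nonneg_right h3 (hNb0 ω hω)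
      refine h2.trans ?_
      rw [Ex_eq_avg, avg_mul_left]
      exact mul_le_mul_of_nonneg_left hNbA (by positivity)
  calc ∑ p ∈ JB q κ I (ρ m + κ), avg (DD T.V) (fun ω => ∑ b : Bool,
        (if Dx T xS q r k r1 d K κ (xg q κ p) b ω ∧
        Vis T xS q r k κ (xg q κ p) ω then (1 : ℝ) else 0))
      ≤ ∑ p ∈ JB q κ I (ρ m + κ), ∑ b : Bool,
      (A * Ex T.V (fun ω => if Dx T xS q r k r1 d K κ (xg q κ p) b ω then
        ∑ y ∈ box (xg q κ p) κ, S743.bump κ (xg q κ p) y * Gb T xS q r k b ω y else 0) + ε' +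
      Ex T.V (fun ω => if Dx T xS q r k r1 d K κ (xg q κ p) b ω then
        Nb ω * ∑ y ∈ box (xg q κ p) κ, S743.bump κ (xg q κ p) y * S743.pot (ON T xS ω q r k)
          (fun z => if dn q z ≤ 4 * r then ((r : ℝ) ^ 2)⁻¹ else 0) y else 0)) := by
        apply Finset.sum_le_sum
        intro p hp
        rw [avg_sum]
        exact Finset.sum_le_sum fun b _ => hb p hp b
    _ = ∑ b : Bool, ∑ p ∈ JB q κ I (ρ m + κ),
      (A * Ex T.V (fun ω => if Dx T xS q r k r1 d K κ (xg q κ p) b ω then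
        ∑ y ∈ box (xg q κ p) κ, S743.bump κ (xg q κ p) y * Gb T xS q r k b ω y else 0) + ε' +
      Ex T.V (fun ω => if Dx T xS q r k r1 d K κ (xg q κ p) b ω then
        Nb ω * ∑ y ∈ box (xg q κ p) κ, S743.bump κ (xg q κ p) y * S743.pot (ON T xS ω q r k)
          (fun z => if dn q z ≤ 4 * r then ((r : ℝ) ^ 2)⁻¹ else 0) y else 0)) := Finset.sum_comm
    _ ≤ ∑ _b : Bool, (A * (16000000 * (Cb * (9 * (K : ℝ) ^ 2) * Y ^ 2)) + 1 / 2 +
        16000000 * (Cp * (9 * (K : ℝ) ^ 2)) * A) := Finset.sum_le_sum fun b _ => hfin b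
    _ = _ := by
        rw [Finset.sum_const, nsmul_eq_mul]
        simp only [Finset.card_univ, Fintype.card_bool]
        push_cast
        ring

end Vale.Agent.P155.NT276
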