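import Vale.Agent.P155.NT276.CountFin

/-!
# P155, NT: `count_of : VBC → CountP`
-/

namespace Vale.Agent.P155.NT276

open Finset Vale.Agent.P155 T802 T905 J NT Function Skel NT802 NT905 Filter

/-- the choice of the scales -/
theorem count_num {K C1 m I R r1 : ℕ} {ρ : ℕ → ℕ} {δ d μ η η' : ℝ} (hK : 16 ≤ K) (hm : 1 ≤ m)
    (hμ0 : 0 < μ) (hμd : μ ≤ d / 4) (hμδ : μ ≤ δ / 64) (hδ : 0 < δ)
    (hη : 0 < η) (hη2 : η ≤ δ / (8 * m)) (hη3 : η ≤ δ / 128)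
    (hη4 : η ≤ μ / (2 * (3 * C1 + 2))) (hη' : η' = η / (2 * (K + 8))) (hI2 : 2 ≤ η' * I)
    (hR3 : 3 ≤ (R : ℝ)) (hRη : 2 * (K + 8 : ℝ) ≤ η * R) (hRη' : 400 ≤ η' * R)
    (hRμ : 40 ≤ μ * R) (hRδ : 800 ≤ δ * R)
    (hρw : ∀ i < m, (ρ i : ℝ) + δ / (2 * m) * R ≤ ρ (i + 1))
    (hρm : (ρ m : ℝ) + δ / 4 * R ≤ r1) (hr1R : (r1 : ℝ) + 3 ≤ 2 * R) :
    ∃ κ D : ℕ, (K + 8) * κ ≤ ⌊η * R⌋₊ ∧ ⌊η * R⌋₊ < (K + 8) * (κ + 1) ∧ η' * R ≤ κ ∧ 400 ≤ κ ∧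
      (∀ i < m, ρ i + 2 * κ ≤ ρ (i + 1)) ∧ ρ m + κ + 8 * K * κ + 2 ≤ r1 ∧ r1 ≤ κ * I ∧
      2 * D + 11 ≤ ⌊d * R⌋₊ ∧ 16 ≤ D ∧ ρ m + D + D + (2 * D + 12) ≤ r1 ∧
      C1 * (3 * (K * κ)) + 2 * κ ≤ D ∧ (2 * (((ρ m + D : ℕ) : ℝ) + D) + 3) / D ≤ 10 / μ := by
  have hm0 : (0 : ℝ) < m := by exact_mod_cast (by omega : 0 < m)
  have hKr : (16 : ℝ) ≤ K := by exact_mod_cast hK
  have hRp : (0 : ℝ) < R := by linarith
  have hη'0 : 0 < η' := by rw [hη']; positivity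
  obtain ⟨h, hh⟩ : ∃ h : ℕ, h = ⌊η * R⌋₊ := ⟨_, rfl⟩
  have hh1 : (h : ℝ) ≤ η * R := by rw [hh]; exact Nat.floor_le (by positivity)
  have hh2 : η * R - 1 < h := by rw [hh]; exact Nat.sub_one_lt_floor _
  obtain ⟨κ, hκ⟩ : ∃ κ : ℕ, κ = h / (K + 8) := ⟨_, rfl⟩
  have hκ1 : (K + 8) * κ ≤ h := by rw [hκ]; exact Nat.mul_div_le _ _
  have hκ2 : h < (K + 8) * (κ + 1) := by
    rw [hκ]
    exact Nat.lt_mul_div_succ _ (by omega)
  have h5 : (0 : ℝ) < K + 8 := by linarith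
  have hκ3 : η' * R ≤ κ := by
    have h1 : (h : ℝ) + 1 ≤ (K + 8) * (κ + 1) := by exact_mod_cast hκ2
    have h2 : η * R ≤ (K + 8) * (κ + 1) := by linarith
    have h3 : η * R = 2 * (K + 8) * (η' * R) := by
      rw [hη']
      field_simp
    have h4 : (K + 8 : ℝ) ≤ (K + 8) * (η' * R) := by
      have := mul_le_mul_of_nonneg_left (show (1 : ℝ) ≤ η' * R by linarith) h5.le
      linarith
    by_contra hc'
    rw [not_le] at hc'
    have h6 : (K + 8 : ℝ) * κ < (K + 8) * (η' * R) := mul_lt_mul_of_pos_left hc' h5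
    have h7 : (K + 8 : ℝ) * (κ + 1) = (K + 8) * κ + (K + 8) := by ring
    linarith
  have hκ400 : 400 ≤ κ := by
    have : (400 : ℝ) ≤ κ := hRη'.trans hκ3
    exact_mod_cast this
  have hκ0 : (0 : ℝ) ≤ κ := Nat.cast_nonneg _
  have hκr : (K + 8 : ℝ) * κ ≤ η * R := by
    have : ((K + 8 : ℕ) : ℝ) * κ ≤ h := by exact_mod_cast hκ1
    push_cast at this
    linarith
  have hKκ : (K : ℝ) * κ + 8 * κ ≤ η * R := by
    have h7 : (K + 8 : ℝ) * κ = K * κ + 8 * κ := by ring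
    linarith
  have hKκ0 : (0 : ℝ) ≤ (K : ℝ) * κ := by positivity
  have hκη : (κ : ℝ) ≤ η * R / 8 := by linarith
  obtain ⟨D, hD⟩ : ∃ D : ℕ, D = ⌊μ * R⌋₊ := ⟨_, rfl⟩
  have hD1 : (D : ℝ) ≤ μ * R := by rw [hD]; exact Nat.floor_le (by positivity)
  have hD2 : μ * R - 1 < D := by rw [hD]; exact Nat.sub_one_lt_floor _
  have hηδ := mul_le_mul_of_nonneg_right hη3 hRp.le
  have hμδR := mul_le_mul_of_nonneg_right hμδ hRp.le
  have hρ0 : (0 : ℝ) ≤ ρ m := Nat.cast_nonneg _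
  have hηC : (3 * (C1 : ℝ) + 2) * (η * R) ≤ μ * R / 2 := by
    have h1 : (3 * (C1 : ℝ) + 2) * η ≤ μ / 2 := by
      have h2 : (0 : ℝ) < 2 * (3 * C1 + 2) := by positivity
      rw [le_div_iff₀ h2] at hη4
      linarith
    have := mul_le_mul_of_nonneg_right h1 hRp.le
    linarith
  have har : ρ m + D + D + (2 * D + 12) ≤ r1 := by
    have : (ρ m : ℝ) + D + D + (2 * D + 12) ≤ r1 := by linarith
    exact_mod_cast this
  refine ⟨κ, D, by rw [← hh]; exact hκ1, by rw [← hh]; exact hκ2, hκ3, hκ400, ?_, ?_, ?_, ?_, ?_,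
    har, ?_, ?_⟩
  · intro i hi
    have h1 := hρw i hi
    have h2 : 2 * (κ : ℝ) ≤ δ / (2 * m) * R := by
      have h3 : δ / (8 * m) * R = δ / (2 * m) * R / 4 := by field_simp; ring
      have h4 := mul_le_mul_of_nonneg_right hη2 hRp.le
      rw [h3] at h4
      have h6 : 0 ≤ δ / (2 * m) * R := by positivity
      linarith
    have : (ρ i : ℝ) + 2 * κ ≤ ρ (i + 1) := by linarith
    exact_mod_cast this
  · have : (ρ m : ℝ) + κ + 8 * K * κ + 2 ≤ r1 := by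
      have h1 : 8 * (K : ℝ) * κ = 8 * (K * κ) := by ring
      rw [h1]
      linarith
    exact_mod_cast this
  · have h1 : (r1 : ℝ) ≤ κ * I := by
      have h2 : (0 : ℝ) ≤ I := Nat.cast_nonneg _
      have h3 := mul_le_mul_of_nonneg_right hκ3 h2
      have h4 : η' * R * I = (η' * I) * R := by ring
      rw [h4] at h3
      have h5 := mul_le_mul_of_nonneg_right hI2 hRp.le
      linarith
    exact_mod_cast h1
  · apply Nat.le_floor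
    push_cast
    have := mul_le_mul_of_nonneg_right hμd hRp.le
    linarith
  · have : (16 : ℝ) ≤ D := by linarith
    exact_mod_cast this
  · have h1 : (C1 : ℝ) * (3 * (K * κ)) + 2 * κ ≤ D := by
      have h2 : (C1 : ℝ) * (3 * (K * κ)) ≤ 3 * C1 * (η * R) := by
        have h3 : (K : ℝ) * κ ≤ η * R := by linarith
        have := mul_le_mul_of_nonneg_left h3 (Nat.cast_nonneg C1)
        linarith
      linarith
    exact_mod_cast h1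
  · have hD0 : (0 : ℝ) < D := by linarith
    rw [div_le_div_iff₀ hD0 hμ0]
    have h1 : ((ρ m + D : ℕ) : ℝ) + D ≤ 2 * R := by
      have : ((ρ m + D + D + (2 * D + 12) : ℕ) : ℝ) ≤ r1 := by exact_mod_cast har
      push_cast at this ⊢
      linarith
    have h2 : (2 * (((ρ m + D : ℕ) : ℝ) + D) + 3) * μ ≤ (5 * R) * μ :=
      mul_le_mul_of_nonneg_right (by linarith) hμ0.le
    linarith

/-- **CountP from the visit bound.** -/
theorem count_of (hV : VBC) : CountP := by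
  obtain ⟨K, hK, hV⟩ := hV
  obtain ⟨Cb, C1, hCb, hband⟩ := NT12.band
  obtain ⟨Cp, hCp, hpot⟩ := NT12.band_pot
  intro c δ d hc hδ hd
  obtain ⟨A, hA, hV⟩ := hV c hc
  obtain ⟨μ, hμ⟩ : ∃ μ : ℝ, μ = min (d / 4) (δ / 64) := ⟨_, rfl⟩
  have hμ0 : 0 < μ := by rw [hμ]; exact lt_min (by positivity) (by positivity)
  have hμd : μ ≤ d / 4 := by rw [hμ]; exact min_le_left _ _
  have hμδ : μ ≤ δ / 64 := by rw [hμ]; exact min_le_right _ _
  refine ⟨2 * (2 * (A * (16000000 * (Cb * (9 * (K : ℝ) ^ 2) * (10 / μ) ^ 2)) + 1 / 2 +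
        16000000 * (Cp * (9 * (K : ℝ) ^ 2)) * A)), by positivity, ?_⟩
  intro m hm
  have hm0 : (0 : ℝ) < m := by exact_mod_cast (by omega : 0 < m)
  obtain ⟨η0, hη0⟩ : ∃ η0 : ℝ, η0 = min (δ / (8 * m)) (min (δ / 128) (μ / (2 * (3 * C1 + 2)))) :=
    ⟨_, rfl⟩
  refine ⟨η0, by rw [hη0]; exact lt_min (by positivity) (lt_min (by positivity) (by positivity)),
    ?_⟩
  intro η hη hη1
  have hη2 : η ≤ δ / (8 * m) := hη1.trans (by rw [hη0]; exact min_le_left _ _)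
  have hη3 : η ≤ δ / 128 :=
    hη1.trans (by rw [hη0]; exact (min_le_right _ _).trans (min_le_left _ _))
  have hη4 : η ≤ μ / (2 * (3 * C1 + 2)) :=
    hη1.trans (by rw [hη0]; exact (min_le_right _ _).trans (min_le_right _ _))
  obtain ⟨η', hη'⟩ : ∃ η' : ℝ, η' = η / (2 * (K + 8)) := ⟨_, rfl⟩
  have hη'0 : 0 < η' := by rw [hη']; positivity
  obtain ⟨I, hI⟩ := exists_nat_ge (max 1 (2 / η'))
  have hI1 : 1 ≤ I := by
    have := (le_max_left _ _).trans hI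
    exact_mod_cast this
  have hI2 : 2 ≤ η' * I := by
    have := (le_max_right _ _).trans hI
    rw [div_le_iff₀ hη'0] at this
    linarith
  obtain ⟨ε', hε'⟩ : ∃ ε' : ℝ, ε' = 1 / (2 * ((Jg I).card : ℝ)) := ⟨_, rfl⟩
  have hJ0 : (0 : ℝ) < (Jg I).card := by
    have : (Jg I).Nonempty := ⟨(0, 0), by
      unfold Jg
      rw [Finset.mem_product, Finset.mem_Icc]
      simp⟩
    exact_mod_cast this.card_pos
  have hε'0 : 0 < ε' := by rw [hε']; positivity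
  have hε'1 : ε' * (2 * ((Jg I).card : ℝ)) ≤ 1 := by
    rw [hε']
    exact le_of_eq (by field_simp)
  obtain ⟨R1, hV⟩ := hV η' ε' hη'0 hε'0
  -- large R
  obtain ⟨R0, hR0⟩ : ∃ R0 : ℕ, ∀ R : ℕ, R0 ≤ R → R1 ≤ R ∧ 3 ≤ (R : ℝ) ∧ 1 ≤ c * R ∧
      2 * (K + 8 : ℝ) ≤ η * R ∧ 400 ≤ η' * R ∧ 40 ≤ μ * R ∧ 800 ≤ δ * R ∧ 40 ≤ d * R := by
    have e1 : ∀ x : ℝ, 0 < x → ∀ y : ℝ, ∀ᶠ R : ℕ in atTop, y ≤ x * R := by
      intro x hx y
      have := (tendsto_natCast_atTop_atTop (R := ℝ)).const_mul_atTop hx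
      exact this.eventually_ge_atTop y
    have e2 : ∀ᶠ R : ℕ in atTop, R1 ≤ R ∧ 3 ≤ (R : ℝ) ∧ 1 ≤ c * R ∧
      2 * (K + 8 : ℝ) ≤ η * R ∧ 400 ≤ η' * R ∧ 40 ≤ μ * R ∧ 800 ≤ δ * R ∧ 40 ≤ d * R := by
      refine (eventually_ge_atTop R1).and (((e1 1 one_pos 3).mono fun R h => by linarith).and
        ((e1 c hc 1).and ((e1 η hη _).and ((e1 η' hη'0 _).and ((e1 μ hμ0 _).and
        ((e1 δ hδ _).and (e1 d hd _)))))))
    exact eventually_atTop.1 e2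
  refine ⟨R0, ?_⟩
  intro R hR T hfit xS q r r1 k ρ hcr hrR hx hr0 hρw hρm hr1
  obtain ⟨hRR1, hR3, hRc, hRη, hRη', hRμ, hRδ, _⟩ := hR0 R hR
  have hr : 1 ≤ r := by
    have : (1 : ℝ) ≤ r := hRc.trans hcr
    exact_mod_cast this
  have hrRr : (r : ℝ) ≤ R := by exact_mod_cast hrR
  have hr1R : (r1 : ℝ) + 3 ≤ 2 * R := by
    have : (r1 : ℝ) + 3 ≤ 2 * r := by exact_mod_cast hr1
    linarith
  obtain ⟨κ, D, k1, k2, k3, k4, k5, k6, k7, k8, k9, k10, k11, k12⟩ := count_num hK hm hμ0 hμd hμδ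
    hδ hη hη2 hη3 hη4 hη' hI2 hR3 hRη hRη' hRμ hRδ hρw hρm hr1R
  obtain ⟨Nb, hNb0, hNbA, hV⟩ := hV R hRR1 T hfit xS q r k hcr hrR hx
  exact count_prob hCb hCp hA hband hpot hNb0 hNbA
    (fun x b Dom g1 g2 g3 => hV x κ b Dom k3 k4 g1 g2 g3) hr hx hr1 hK k4 k1 k2 k5 k6 k7 hI1 k8 k9
    k10 k11 k12 hε'1 hε'0.le

end Vale.Agent.P155.NT276
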