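import Vale.Agent.P155.NT276.Far
import Vale.Agent.P155.G1.Annulus
import Vale.Agent.P155.NT426.Flux

/-!
# P155, NT: the energy drop (V2)

`pot_lower`: lower bound of a Green potential near its source.  `drop_pt`, `drop`: if the domain
loses a set which meets all contours of an annulus around the source, then the energy
`∑ φ G φ` drops by a definite amount.
-/

namespace Vale.Agent.P155.NT276

open Finset Vale.Agent.P155 Vale.Agent.P155.G45 Vale.Agent.P155.J Vale.Agent.P155.H12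

/-- the barrier `a² / (|y - x|² + a²)` -/
noncomputable def barr (x : Pt) (a : ℝ) (y : Pt) : ℝ := a ^ 2 / (sqd x y + a ^ 2)

theorem two_inv_le {T h : ℝ} (hT : 0 < T) (hh : |h| < T) :
    2 / T + 2 * h ^ 2 / T ^ 3 ≤ 1 / (T + h) + 1 / (T - h) := by
  obtain ⟨h1, h2⟩ := abs_lt.1 hh
  have e1 : 0 < T + h := by linarith
  have e2 : 0 < T - h := by linarith
  have e : 1 / (T + h) + 1 / (T - h) - (2 / T + 2 * h ^ 2 / T ^ 3) =
      2 * h ^ 4 / (T ^ 3 * ((T + h) * (T - h))) := by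
    field_simp
    ring
  have : 0 ≤ 2 * h ^ 4 / (T ^ 3 * ((T + h) * (T - h))) := by positivity
  linarith

theorem lap_barr_ge {x y : Pt} {a : ℝ} (ha : 1 ≤ a) :
    a ^ 2 * (8 * sqd x y / (sqd x y + a ^ 2 + 1) ^ 3 -
      4 / ((sqd x y + a ^ 2 + 1) * (sqd x y + a ^ 2))) ≤ lap (barr x a) y := by
  set d1 : ℝ := (y.1 : ℝ) - x.1 with hd1
  set d2 : ℝ := (y.2 : ℝ) - x.2 with hd2
  set N : ℝ := sqd x y with hN
  have hNe : N = d1 ^ 2 + d2 ^ 2 := rfl
  set T : ℝ := N + a ^ 2 + 1 with hT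
  have ha2 : 1 ≤ a ^ 2 := by nlinarith
  have hT1 : |2 * d1| < T := by
    rw [abs_lt]
    constructor <;> nlinarith [sq_nonneg d2, sq_nonneg (d1 - 1), sq_nonneg (d1 + 1)]
  have hT2 : |2 * d2| < T := by
    rw [abs_lt]
    constructor <;> nlinarith [sq_nonneg d1, sq_nonneg (d2 - 1), sq_nonneg (d2 + 1)]
  have hN0 : 0 ≤ N := by rw [hNe]; positivity
  have hTp : 0 < T := by positivity
  have h1 := two_inv_le hTp hT1
  have h2 := two_inv_le hTp hT2
  have e : lap (barr x a) y = a ^ 2 * ((1 / (T + 2 * d1) + 1 / (T - 2 * d1)) +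
      (1 / (T + 2 * d2) + 1 / (T - 2 * d2)) - 4 / (N + a ^ 2)) := by
    unfold lap barr
    have q1 : sqd x (y.1 + 1, y.2) + a ^ 2 = T + 2 * d1 := by
      rw [hT, hNe]; unfold sqd; push_cast; rw [hd1, hd2]; ring
    have q2 : sqd x (y.1 - 1, y.2) + a ^ 2 = T - 2 * d1 := by
      rw [hT, hNe]; unfold sqd; push_cast; rw [hd1, hd2]; ring
    have q3 : sqd x (y.1, y.2 + 1) + a ^ 2 = T + 2 * d2 := by
      rw [hT, hNe]; unfold sqd; push_cast; rw [hd1, hd2]; ring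
    have q4 : sqd x (y.1, y.2 - 1) + a ^ 2 = T - 2 * d2 := by
      rw [hT, hNe]; unfold sqd; push_cast; rw [hd1, hd2]; ring
    rw [q1, q2, q3, q4, ← hN]
    ring
  rw [e]
  apply mul_le_mul_of_nonneg_left _ (by positivity)
  have e3 : 2 / T + 2 / T - 4 / (N + a ^ 2) = - (4 / (T * (N + a ^ 2))) := by
    have : 0 < N + a ^ 2 := by positivity
    rw [hT]
    field_simp
    ring
  have e4 : 2 * (2 * d1) ^ 2 / T ^ 3 + 2 * (2 * d2) ^ 2 / T ^ 3 = 8 * N / T ^ 3 := by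
    rw [hNe]; ring
  linarith

theorem lap_barr_far {x y : Pt} {a : ℝ} (ha : 1 ≤ a) (h : 4 * a ^ 2 ≤ sqd x y) :
    0 ≤ lap (barr x a) y := by
  refine le_trans ?_ (lap_barr_ge ha)
  apply mul_nonneg (by positivity)
  set N : ℝ := sqd x y
  have ha2 : 1 ≤ a ^ 2 := by nlinarith
  have hS : 0 < N + a ^ 2 := by linarith
  have hT : 0 < N + a ^ 2 + 1 := by linarith
  rw [sub_nonneg, div_le_div_iff₀ (by positivity) (by positivity)]
  have key : (N + a ^ 2 + 1) ^ 2 ≤ 2 * N * (N + a ^ 2) := by nlinarith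
  have : 4 * (N + a ^ 2 + 1) ^ 3 = (N + a ^ 2 + 1) * 4 * (N + a ^ 2 + 1) ^ 2 := by ring
  rw [this]
  calc (N + a ^ 2 + 1) * 4 * (N + a ^ 2 + 1) ^ 2
      ≤ (N + a ^ 2 + 1) * 4 * (2 * N * (N + a ^ 2)) := by gcongr
    _ = _ := by ring

theorem lap_barr_near {x y : Pt} {a : ℝ} (ha : 1 ≤ a) :
    - (4 / a ^ 2) ≤ lap (barr x a) y := by
  refine le_trans ?_ (lap_barr_ge ha)
  set N : ℝ := sqd x y
  have hN0 : 0 ≤ N := sqd_nonneg x y
  have ha2 : 1 ≤ a ^ 2 := by nlinarith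
  have h1 : 0 ≤ 8 * N / (N + a ^ 2 + 1) ^ 3 := by positivity
  have h2 : 4 / ((N + a ^ 2 + 1) * (N + a ^ 2)) ≤ 4 / (a ^ 2 * a ^ 2) := by
    apply div_le_div_of_nonneg_left (by norm_num) (by positivity)
    nlinarith
  have h3 : 4 / a ^ 2 = a ^ 2 * (4 / (a ^ 2 * a ^ 2)) := by field_simp
  rw [h3, ← mul_neg]
  apply mul_le_mul_of_nonneg_left _ (by positivity)
  linarith

/-- **Lower bound of a potential near the source.** -/
theorem pot_lower {O : Set Pt} (hO : O.Finite) {x : Pt} {a R : ℕ} {A0 : ℝ} {φ u : Pt → ℝ}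
    (ha : 1 ≤ a) (hR : 1 ≤ R) (hA : 0 ≤ A0) (hbox : ∀ y, dn x y ≤ 2 * R * a → y ∈ O)
    (hu : IsGreen O φ u) (h0 : ∀ y ∈ O, 0 ≤ φ y)
    (hφ : ∀ y, dn x y ≤ 2 * a → 4 * A0 / (a : ℝ) ^ 2 ≤ φ y) :
    ∀ y, dn x y ≤ R * a → A0 / (8 * (R : ℝ) ^ 2) ≤ u y := by
  have ha1 : (1 : ℝ) ≤ a := by exact_mod_cast ha
  have hR1 : (1 : ℝ) ≤ R := by exact_mod_cast hR
  set κ : ℝ := (a : ℝ) ^ 2 / ((2 * (R : ℝ) * a) ^ 2 + (a : ℝ) ^ 2) with hκ
  have hsub : ∀ y, A0 * (barr x a y - κ) ≤ u y := by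
    apply comparison hO
    · intro y hy
      have e : lap (fun y => A0 * (barr x a y - κ)) y = A0 * lap (barr x a) y := by
        unfold lap; ring
      rw [e]
      have h1 := hu.eq y hy
      by_cases h4 : 4 * (a : ℝ) ^ 2 ≤ sqd x y
      · have h2 := mul_nonneg hA (lap_barr_far ha1 h4)
        have h3 := h0 y hy
        linarith
      · have h2 : dn x y ≤ 2 * a := by
          by_contra hlt
          apply h4
          have h5 : (2 * (a : ℝ)) ≤ dn x y := by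
            have : 2 * a ≤ dn x y := by omega
            exact_mod_cast this
          have h6 := le_sqd x y
          nlinarith
        have h3 := hφ y h2
        have h5 := mul_le_mul_of_nonneg_left (lap_barr_near (x := x) (y := y) ha1) hA
        have h6 : 4 * A0 / (a : ℝ) ^ 2 = - (A0 * - (4 / (a : ℝ) ^ 2)) := by ring
        linarith
    · intro y hy
      rw [hu.off y hy]
      have h2 : 2 * R * a ≤ dn x y := by
        by_contra hlt
        exact hy (hbox y (by omega))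
      have h3 : (2 * (R : ℝ) * a) ≤ dn x y := by exact_mod_cast h2
      have h4 := le_sqd x y
      have h5 : (2 * (R : ℝ) * a) ^ 2 ≤ sqd x y := by
        have : (0 : ℝ) ≤ 2 * (R : ℝ) * a := by positivity
        nlinarith
      have h6 : barr x a y ≤ κ := by
        unfold barr
        rw [hκ]
        apply div_le_div_of_nonneg_left (by positivity) (by positivity)
        linarith
      have := mul_le_mul_of_nonneg_left (sub_nonpos.2 h6) hA
      linarith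
  intro y hy
  refine le_trans ?_ (hsub y)
  have h1 : sqd x y ≤ 2 * ((R : ℝ) * a) ^ 2 := by
    have h2 : ((dn x y : ℕ) : ℝ) ≤ (R : ℝ) * a := by exact_mod_cast hy
    have h3 := sqd_le x y
    have h4 : (0 : ℝ) ≤ dn x y := Nat.cast_nonneg _
    nlinarith
  have h2 : (a : ℝ) ^ 2 / (2 * ((R : ℝ) * a) ^ 2 + (a : ℝ) ^ 2) ≤ barr x a y := by
    unfold barr
    apply div_le_div_of_nonneg_left (by positivity)
    · have := sqd_nonneg x y
      positivity
    · linarith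
  have h3 : 1 / (8 * (R : ℝ) ^ 2) ≤
      (a : ℝ) ^ 2 / (2 * ((R : ℝ) * a) ^ 2 + (a : ℝ) ^ 2) - κ := by
    have e1 : (a : ℝ) ^ 2 / (2 * ((R : ℝ) * a) ^ 2 + (a : ℝ) ^ 2) = 1 / (2 * (R : ℝ) ^ 2 + 1) := by
      field_simp
    have e2 : κ = 1 / (4 * (R : ℝ) ^ 2 + 1) := by
      rw [hκ]; field_simp; ring
    rw [e1, e2, div_sub_div _ _ (by positivity) (by positivity),
      div_le_div_iff₀ (by positivity) (by positivity)]
    have : (1 : ℝ) ≤ (R : ℝ) ^ 2 := by nlinarith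
    nlinarith [mul_nonneg (sub_nonneg.2 this) (sub_nonneg.2 this)]
  have h4 : A0 / (8 * (R : ℝ) ^ 2) = A0 * (1 / (8 * (R : ℝ) ^ 2)) := by ring
  rw [h4]
  apply mul_le_mul_of_nonneg_left _ hA
  linarith

/-- harmonicity of a truncated function -/
theorem lap_trunc {x y : Pt} {N : ℕ} (h : dn x y < N) (v : Pt → ℝ) :
    lap (fun z => if dn x z ≤ N then v z else 0) y = lap v y := by
  have e : ∀ z, Adj y z → dn x z ≤ N := fun z hz => by
    have h1 := NT426.dn_of_adj hz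
    have h2 := G45.dn_tri x y z
    omega
  unfold lap
  simp only
  rw [if_pos (e _ (by unfold Adj; simp)), if_pos (e _ (by unfold Adj; simp)),
    if_pos (e _ (by unfold Adj; simp)), if_pos (e _ (by unfold Adj; simp)), if_pos h.le]

/-- **Drop of the potential**, source at scale `a`, obstacles at scale `j * a`. -/
theorem drop_pt_j : ∃ K : ℕ, 2 ≤ K ∧ ∀ (O1 O2 : Set Pt), O1.Finite → O2 ⊆ O1 → ∀ (x : Pt) (a j : ℕ)
    (A0 : ℝ) (φ u1 u2 : Pt → ℝ), 1 ≤ a → 1 ≤ j → 0 ≤ A0 → (∀ y, dn x y ≤ 16 * K * (j * a) → y ∈ O1) →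
    (∀ y ∈ O1, 0 ≤ φ y) → (∀ y, dn x y ≤ 2 * a → 4 * A0 / (a : ℝ) ^ 2 ≤ φ y) →
    IsGreen O1 φ u1 → IsGreen O2 φ u2 →
    (∀ r : ℕ, 8 * (j * a) ≤ r → r ≤ 4 * K * (j * a) → ∃ p, p ∉ O2 ∧ dn x p = r) →
    (∀ y, u2 y ≤ u1 y) ∧ ∀ y, dn x y ≤ 8 * (j * a) →
      A0 / (1024 * (K : ℝ) ^ 2 * (j : ℝ) ^ 2) ≤ u1 y - u2 y := by
  obtain ⟨K, hK2, hK⟩ := G1.annulus
  refine ⟨K, hK2, ?_⟩
  intro O1 O2 hO1 hsub x a j A0 φ u1 u2 ha hj hA hbox hφ0 hφ hu1 hu2 hring
  obtain ⟨b, hb⟩ : ∃ b : ℕ, b = j * a := ⟨_, rfl⟩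
  rw [← hb] at hbox hring ⊢
  have hb1 : 1 ≤ b := by
    have : 1 * 1 ≤ j * a := Nat.mul_le_mul hj ha
    omega
  have hO2 : O2.Finite := hO1.subset hsub
  obtain ⟨m0, hm0⟩ : ∃ m0 : ℝ, m0 = A0 / (8 * ((8 * K * j : ℕ) : ℝ) ^ 2) := ⟨_, rfl⟩
  have hm00 : 0 ≤ m0 := by rw [hm0]; positivity
  have hlow : ∀ y, dn x y ≤ 8 * K * b → m0 ≤ u1 y := by
    rw [hm0]
    intro y hy
    exact pot_lower hO1 ha (R := 8 * K * j) (by
      have : 1 * 1 ≤ (8 * K) * j := Nat.mul_le_mul (by omega) hj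
      omega) hA (fun y hy => hbox y (by
      have : 2 * (8 * K * j) * a = 16 * K * b := by rw [hb]; ring
      omega)) hu1 hφ0 hφ y (by
      have : 8 * K * j * a = 8 * K * b := by rw [hb]; ring
      rw [this]
      exact hy)
  have hu10 := green_nonneg hO1 hu1 hφ0
  obtain ⟨w, hw⟩ : ∃ w : Pt → ℝ, w = fun y => u1 y - u2 y := ⟨_, rfl⟩
  have hwlap : ∀ y ∈ O2, lap w y = 0 := by
    intro y hy
    rw [hw, lap_sub]
    linarith [hu1.eq y (hsub hy), hu2.eq y hy]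
  have hwoff : ∀ y, y ∉ O2 → w y = u1 y := by
    intro y hy
    rw [hw]
    simp only
    rw [hu2.off y hy, sub_zero]
  have hw0 : ∀ y, 0 ≤ w y := by
    have := comparison hO2 (u := fun _ => 0) (v := w)
      (fun y hy => by rw [lap_const, hwlap y hy]) (fun y hy => by rw [hwoff y hy]; exact hu10 y)
    exact this
  refine ⟨fun y => by have := hw0 y; rw [hw] at this; simp only at this; linarith, ?_⟩
  -- the comparison function
  have hDf : {y : Pt | y ∈ O2 ∧ dn x y < 8 * K * b}.Finite := hO2.subset fun y hy => hy.1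
  classical
  obtain ⟨u, hu0, hu3⟩ := exists_dirichlet hDf (fun _ => 0) (fun y => if y ∈ O2 then m0 else 0)
  have hulap : ∀ y ∈ O2, dn x y < 8 * K * b → lap u y = 0 := by
    intro y h1 h2
    have := hu3 y ⟨h1, h2⟩
    linarith
  have huoff : ∀ y, y ∉ O2 → u y = 0 := by
    intro y hy
    rw [hu0 y (fun h => hy h.1), if_neg hy]
  have huout : ∀ y, y ∉ {y : Pt | y ∈ O2 ∧ dn x y < 8 * K * b} → 0 ≤ u y ∧ u y ≤ m0 := by
    intro y hy
    rw [hu0 y hy]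
    split_ifs
    · exact ⟨hm00, le_rfl⟩
    · exact ⟨le_rfl, hm00⟩
  have hunn : ∀ y, 0 ≤ u y := by
    have := comparison hDf (u := fun _ => 0) (v := u)
      (fun y hy => by rw [lap_const]; linarith [hu3 y hy]) (fun y hy => (huout y hy).1)
    exact this
  have hule : ∀ y, u y ≤ m0 := by
    have := comparison hDf (u := u) (v := fun _ => m0)
      (fun y hy => by rw [lap_const]; linarith [hu3 y hy]) (fun y hy => (huout y hy).2)
    exact this
  have hcmp : ∀ y, (if dn x y ≤ 8 * K * b then m0 - w y else 0) ≤ u y := by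
    apply comparison hDf (u := fun y => if dn x y ≤ 8 * K * b then m0 - w y else 0)
    · rintro y ⟨hy1, hy2⟩
      rw [lap_trunc hy2, hulap y hy1 hy2]
      have : lap (fun z => m0 - w z) y = - lap w y := by unfold lap; ring
      rw [this, hwlap y hy1, neg_zero]
    · intro y hy
      split_ifs with h1
      · rcases Classical.em (y ∈ O2) with h2 | h2
        · rw [hu0 y hy, if_pos h2]
          have := hw0 y
          linarith
        · rw [huoff y h2, hwoff y h2]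
          have := hlow y h1
          linarith
      · exact hunn y
  obtain ⟨s, hs1, hs2, hs3⟩ := hK O2 x (4 * b) m0 u (by omega)
    (fun r h1 h2 => hring r (by omega) (by
      have : K * (4 * b) = 4 * K * b := by ring
      omega)) huoff
    (fun y hy _ h2 => hulap y hy (by
      have : 2 * (K * (4 * b)) = 8 * K * b := by ring
      omega))
    (fun y _ _ => by rw [abs_of_nonneg (hunn y)]; exact hule y)
  -- the maximum principle inside
  have hDs : {y : Pt | y ∈ O2 ∧ dn x y < s}.Finite := hO2.subset fun y hy => hy.1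
  have hs8 : s ≤ 8 * K * b := by
    have : K * (4 * b) = 4 * K * b := by ring
    have h2 : 4 * K * b ≤ 8 * K * b := Nat.mul_le_mul_right _ (by omega)
    omega
  have hin : ∀ y, (if dn x y ≤ s then u y else 0) ≤ m0 / 2 := by
    apply comparison hDs (u := fun y => if dn x y ≤ s then u y else 0) (v := fun _ => m0 / 2)
    · rintro y ⟨hy1, hy2⟩
      rw [lap_trunc hy2, lap_const, hulap y hy1 (by omega)]
    · intro y hy
      split_ifs with h1
      · rcases Classical.em (y ∈ O2) with h2 | h2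
        · have h3 : dn x y = s := by
            by_contra h4
            exact hy ⟨h2, by omega⟩
          have := hs3 y h3
          rw [abs_of_nonneg (hunn y)] at this
          exact this
        · rw [huoff y h2]
          positivity
      · positivity
  intro y hy
  have h1 := hcmp y
  have h2 := hin y
  have h3 : 8 * b ≤ 8 * K * b := Nat.mul_le_mul_right _ (by omega)
  rw [if_pos (by omega)] at h1 h2
  have h4 : A0 / (1024 * (K : ℝ) ^ 2 * (j : ℝ) ^ 2) = m0 / 2 := by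
    rw [hm0]
    push_cast
    have : (K : ℝ) ≠ 0 := by
      have : 0 < K := by omega
      positivity
    have : (j : ℝ) ≠ 0 := by
      have : 0 < j := by omega
      positivity
    field_simp
    ring
  have h5 : w y = u1 y - u2 y := by rw [hw]
  rw [h4, ← h5]
  linarith

/-- **Drop of the potential.** -/
theorem drop_pt : ∃ K : ℕ, 2 ≤ K ∧ ∀ (O1 O2 : Set Pt), O1.Finite → O2 ⊆ O1 → ∀ (x : Pt) (a : ℕ)
    (A0 : ℝ) (φ u1 u2 : Pt → ℝ), 1 ≤ a → 0 ≤ A0 → (∀ y, dn x y ≤ 16 * K * a → y ∈ O1) →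
    (∀ y ∈ O1, 0 ≤ φ y) → (∀ y, dn x y ≤ 2 * a → 4 * A0 / (a : ℝ) ^ 2 ≤ φ y) →
    IsGreen O1 φ u1 → IsGreen O2 φ u2 →
    (∀ r : ℕ, 8 * a ≤ r → r ≤ 4 * K * a → ∃ p, p ∉ O2 ∧ dn x p = r) →
    (∀ y, u2 y ≤ u1 y) ∧ ∀ y, dn x y ≤ 8 * a → A0 / (1024 * (K : ℝ) ^ 2) ≤ u1 y - u2 y := by
  obtain ⟨K, hK2, hK⟩ := drop_pt_j
  refine ⟨K, hK2, ?_⟩
  intro O1 O2 hO1 hsub x a A0 φ u1 u2 ha hA hbox hφ0 hφ hu1 hu2 hring
  have h := hK O1 O2 hO1 hsub x a 1 A0 φ u1 u2 ha le_rfl hA (by rw [one_mul]; exact hbox) hφ0 hφ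
    hu1 hu2 (by rw [one_mul]; exact hring)
  rw [one_mul] at h
  simpa using h

/-- **V2: drop of the energy.** -/
theorem drop : ∃ K : ℕ, 2 ≤ K ∧ ∀ (O1 O2 : Set Pt) (hO1 : O1.Finite), O2 ⊆ O1 → ∀ (x : Pt) (a : ℕ)
    (A0 : ℝ) (φ u1 u2 : Pt → ℝ), 1 ≤ a → 0 ≤ A0 → (∀ y, dn x y ≤ 16 * K * a → y ∈ O1) →
    (∀ y ∈ O1, 0 ≤ φ y) → (∀ y, dn x y ≤ 2 * a → 4 * A0 / (a : ℝ) ^ 2 ≤ φ y) →
    IsGreen O1 φ u1 → IsGreen O2 φ u2 →
    (∀ r : ℕ, 8 * a ≤ r → r ≤ 4 * K * a → ∃ p, p ∉ O2 ∧ dn x p = r) →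
    A0 ^ 2 / (16 * (K : ℝ) ^ 2) ≤ ∑ y ∈ hO1.toFinset, φ y * (u1 y - u2 y) := by
  obtain ⟨K, hK2, hK⟩ := drop_pt
  refine ⟨K, hK2, ?_⟩
  intro O1 O2 hO1 hsub x a A0 φ u1 u2 ha hA hbox hφ0 hφ hu1 hu2 hring
  obtain ⟨h1, h2⟩ := hK O1 O2 hO1 hsub x a A0 φ u1 u2 ha hA hbox hφ0 hφ hu1 hu2 hring
  have ha0 : (0 : ℝ) < a := by exact_mod_cast ha
  have hK0 : (0 : ℝ) < K := by exact_mod_cast (by omega : 0 < K)
  have hKa : 2 * a ≤ 16 * K * a := Nat.mul_le_mul_right _ (by omega)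
  have hsubs : box x (2 * a) ⊆ hO1.toFinset := by
    intro y hy
    rw [Set.Finite.mem_toFinset]
    exact hbox y ((G45.mem_box.1 hy).trans hKa)
  calc A0 ^ 2 / (16 * (K : ℝ) ^ 2)
      = 16 * (a : ℝ) ^ 2 * (4 * A0 / (a : ℝ) ^ 2 * (A0 / (1024 * (K : ℝ) ^ 2))) := by
        field_simp
        ring
    _ ≤ (2 * ((2 * a : ℕ) : ℝ) + 1) ^ 2 * (4 * A0 / (a : ℝ) ^ 2 * (A0 / (1024 * (K : ℝ) ^ 2))) := by
        apply mul_le_mul_of_nonneg_right _ (by positivity)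
        push_cast
        nlinarith
    _ = ∑ _y ∈ box x (2 * a), (4 * A0 / (a : ℝ) ^ 2 * (A0 / (1024 * (K : ℝ) ^ 2))) := by
        rw [Finset.sum_const, card_box, nsmul_eq_mul]
        push_cast
        ring
    _ ≤ ∑ y ∈ box x (2 * a), φ y * (u1 y - u2 y) := by
        apply Finset.sum_le_sum
        intro y hy
        have h3 := G45.mem_box.1 hy
        apply mul_le_mul (hφ y h3) (h2 y (by omega)) (by positivity)
        exact hφ0 y (hbox y (h3.trans hKa))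
    _ ≤ ∑ y ∈ hO1.toFinset, φ y * (u1 y - u2 y) := by
        apply Finset.sum_le_sum_of_subset_of_nonneg hsubs
        intro y hy _
        exact mul_nonneg (hφ0 y (hO1.mem_toFinset.1 hy)) (sub_nonneg.2 (h1 y))

theorem pair_eq_sum {O1 : Set Pt} (hO1 : O1.Finite) {φ u : Pt → ℝ} (h : ∀ y, y ∉ O1 → u y = 0) :
    pair φ u = ∑ y ∈ hO1.toFinset, φ y * u y := by
  unfold pair
  apply finsum_eq_sum_of_support_subset
  intro y hy
  rw [Finset.mem_coe, Set.Finite.mem_toFinset]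
  by_contra hc
  exact hy (by simp only; rw [h y hc, mul_zero])

/-- **V2**, with `pair`. -/
theorem drop_pair : ∃ K : ℕ, 2 ≤ K ∧ ∀ (O1 O2 : Set Pt), O1.Finite → O2 ⊆ O1 → ∀ (x : Pt) (a : ℕ)
    (A0 : ℝ) (φ u1 u2 : Pt → ℝ), 1 ≤ a → 0 ≤ A0 → (∀ y, dn x y ≤ 16 * K * a → y ∈ O1) →
    (∀ y ∈ O1, 0 ≤ φ y) → (∀ y, dn x y ≤ 2 * a → 4 * A0 / (a : ℝ) ^ 2 ≤ φ y) →
    IsGreen O1 φ u1 → IsGreen O2 φ u2 →
    (∀ r : ℕ, 8 * a ≤ r → r ≤ 4 * K * a → ∃ p, p ∉ O2 ∧ dn x p = r) →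
    A0 ^ 2 / (16 * (K : ℝ) ^ 2) ≤ pair φ u1 - pair φ u2 := by
  obtain ⟨K, hK2, hK⟩ := drop
  refine ⟨K, hK2, ?_⟩
  intro O1 O2 hO1 hsub x a A0 φ u1 u2 ha hA hbox hφ0 hφ hu1 hu2 hring
  have h1 := hK O1 O2 hO1 hsub x a A0 φ u1 u2 ha hA hbox hφ0 hφ hu1 hu2 hring
  have e1 := pair_eq_sum hO1 (φ := φ) (u := u1) hu1.off
  have e2 := pair_eq_sum hO1 (φ := φ) (u := u2) (fun y hy => hu2.off y (fun h => hy (hsub h)))
  rw [e1, e2, ← Finset.sum_sub_distrib]
  refine h1.trans (le_of_eq ?_)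
  exact Finset.sum_congr rfl fun y _ => by ring

/-- the energy is monotone in the domain -/
theorem pair_mono {O1 O2 : Set Pt} (hO1 : O1.Finite) (hsub : O2 ⊆ O1) {φ u1 u2 : Pt → ℝ}
    (hφ0 : ∀ y ∈ O1, 0 ≤ φ y) (hu1 : IsGreen O1 φ u1) (hu2 : IsGreen O2 φ u2) :
    pair φ u2 ≤ pair φ u1 := by
  have hO2 : O2.Finite := hO1.subset hsub
  have hu10 := green_nonneg hO1 hu1 hφ0
  have hle : ∀ y, u2 y ≤ u1 y := comparison hO2
    (fun y hy => by linarith [hu1.eq y (hsub hy), hu2.eq y hy])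
    (fun y hy => by rw [hu2.off y hy]; exact hu10 y)
  rw [pair_eq_sum hO1 (φ := φ) (u := u1) hu1.off,
    pair_eq_sum hO1 (φ := φ) (u := u2) (fun y hy => hu2.off y (fun h => hy (hsub h)))]
  apply Finset.sum_le_sum
  intro y hy
  exact mul_le_mul_of_nonneg_left (hle y) (hφ0 y (hO1.mem_toFinset.1 hy))

end Vale.Agent.P155.NT276
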