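import Vale.Agent.P155.NT276.Drop
import Vale.Agent.P155.S743.Bump

/-!
# P155, NT: the energy drop for the standard bump of mass one
-/

namespace Vale.Agent.P155.NT276

open Finset Vale.Agent.P155 Vale.Agent.P155.G45 Vale.Agent.P155.J Vale.Agent.P155.H12

/-! ### lower bound of the standard bump -/

theorem AvX_low {f : Pt → ℝ} {m m' : ℕ} {a b : ℤ} {c : ℝ} (hf : ∀ z, 0 ≤ f z) (hc : 0 ≤ c)
    (hm : m' = m / 2) (hm2 : 2 ≤ m)
    (h : ∀ z : Pt, a ≤ z.1 → z.1 < a + m' → b ≤ z.2 → z.2 < b + m' → c ≤ f z) :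
    ∀ z : Pt, a - m' ≤ z.1 → z.1 < a → b ≤ z.2 → z.2 < b + m' → c / 3 ≤ AvX m f z := by
  intro z h1 h2 h3 h4
  unfold AvX
  obtain ⟨s, hs⟩ : ∃ s : ℕ, (s : ℤ) = a - z.1 := ⟨(a - z.1).toNat, by omega⟩
  have hsub : Finset.Ico s (s + m') ⊆ Finset.range m := by
    intro i hi
    rw [Finset.mem_Ico] at hi
    rw [Finset.mem_range]
    omega
  have hm0 : (0 : ℝ) < m := by exact_mod_cast (by omega : 0 < m)
  have h5 : (m' : ℝ) * c ≤ ∑ i ∈ range m, f (z.1 + i, z.2) := by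
    calc (m' : ℝ) * c = ∑ _i ∈ Finset.Ico s (s + m'), c := by
          rw [Finset.sum_const, Nat.card_Ico, nsmul_eq_mul]
          congr 2
          omega
      _ ≤ ∑ i ∈ Finset.Ico s (s + m'), f (z.1 + i, z.2) := by
          apply Finset.sum_le_sum
          intro i hi
          rw [Finset.mem_Ico] at hi
          apply h
          · simp only; omega
          · simp only; omega
          · exact h3
          · exact h4
      _ ≤ _ := Finset.sum_le_sum_of_subset_of_nonneg hsub (fun _ _ _ => hf _)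
  have h6 : (m : ℝ) ≤ 3 * m' := by
    have : m ≤ 3 * m' := by omega
    exact_mod_cast this
  rw [inv_mul_eq_div, le_div_iff₀ hm0]
  nlinarith

theorem AvY_low {f : Pt → ℝ} {m m' : ℕ} {a b : ℤ} {c : ℝ} (hf : ∀ z, 0 ≤ f z) (hc : 0 ≤ c)
    (hm : m' = m / 2) (hm2 : 2 ≤ m)
    (h : ∀ z : Pt, a ≤ z.1 → z.1 < a + m' → b ≤ z.2 → z.2 < b + m' → c ≤ f z) :
    ∀ z : Pt, a ≤ z.1 → z.1 < a + m' → b - m' ≤ z.2 → z.2 < b → c / 3 ≤ AvY m f z := by
  intro z h1 h2 h3 h4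
  unfold AvY
  obtain ⟨s, hs⟩ : ∃ s : ℕ, (s : ℤ) = b - z.2 := ⟨(b - z.2).toNat, by omega⟩
  have hsub : Finset.Ico s (s + m') ⊆ Finset.range m := by
    intro i hi
    rw [Finset.mem_Ico] at hi
    rw [Finset.mem_range]
    omega
  have hm0 : (0 : ℝ) < m := by exact_mod_cast (by omega : 0 < m)
  have h5 : (m' : ℝ) * c ≤ ∑ i ∈ range m, f (z.1, z.2 + i) := by
    calc (m' : ℝ) * c = ∑ _i ∈ Finset.Ico s (s + m'), c := by
          rw [Finset.sum_const, Nat.card_Ico, nsmul_eq_mul]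
          congr 2
          omega
      _ ≤ ∑ i ∈ Finset.Ico s (s + m'), f (z.1, z.2 + i) := by
          apply Finset.sum_le_sum
          intro i hi
          rw [Finset.mem_Ico] at hi
          apply h
          · exact h1
          · exact h2
          · simp only; omega
          · simp only; omega
      _ ≤ _ := Finset.sum_le_sum_of_subset_of_nonneg hsub (fun _ _ _ => hf _)
  have h6 : (m : ℝ) ≤ 3 * m' := by
    have : m ≤ 3 * m' := by omega
    exact_mod_cast this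
  rw [inv_mul_eq_div, le_div_iff₀ hm0]
  nlinarith

theorem Av_low {f : Pt → ℝ} {m m' : ℕ} {c : ℝ} (hf : ∀ z, 0 ≤ f z) (hc : 0 ≤ c)
    (hm : m' = m / 2) (hm2 : 2 ≤ m)
    (h : ∀ z : Pt, 0 ≤ z.1 → z.1 < m' → 0 ≤ z.2 → z.2 < m' → c ≤ f z) :
    ∀ z : Pt, -(4 * (m' : ℤ)) ≤ z.1 → z.1 < -(3 * (m' : ℤ)) → -(4 * (m' : ℤ)) ≤ z.2 →
      z.2 < -(3 * (m' : ℤ)) → c / 3 ^ 8 ≤ Av m f z := by
  have hY : ∀ n : ℕ, (∀ z, 0 ≤ (AvY m)^[n] f z) ∧ ∀ z : Pt, 0 ≤ z.1 → z.1 < 0 + (m' : ℤ) →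
      -(n * (m' : ℤ)) ≤ z.2 → z.2 < -(n * (m' : ℤ)) + m' → c / 3 ^ n ≤ (AvY m)^[n] f z := by
    intro n
    induction n with
    | zero =>
      refine ⟨hf, fun z h1 h2 h3 h4 => ?_⟩
      rw [pow_zero, div_one]
      refine h z h1 (by omega) (by simpa using h3) (by simpa using h4)
    | succ n ih =>
      rw [Function.iterate_succ_apply']
      refine ⟨AvY_nonneg ih.1, fun z h1 h2 h3 h4 => ?_⟩
      have h5 := AvY_low ih.1 (by positivity : 0 ≤ c / 3 ^ n) hm hm2 ih.2 z h1 h2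
        (by push_cast at h3 ⊢; linarith) (by push_cast at h4 ⊢; linarith)
      rw [div_div] at h5
      rw [pow_succ]
      exact h5
  have hX : ∀ n : ℕ, (∀ z, 0 ≤ (AvX m)^[n] ((AvY m)^[4] f) z) ∧ ∀ z : Pt,
      -(n * (m' : ℤ)) ≤ z.1 → z.1 < -(n * (m' : ℤ)) + m' →
      -(4 * (m' : ℤ)) ≤ z.2 → z.2 < -(4 * (m' : ℤ)) + m' →
      c / 3 ^ 4 / 3 ^ n ≤ (AvX m)^[n] ((AvY m)^[4] f) z := by
    intro n
    induction n with
    | zero =>
      refine ⟨(hY 4).1, fun z h1 h2 h3 h4 => ?_⟩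
      rw [pow_zero, div_one]
      refine (hY 4).2 z (by simpa using h1) (by simpa using h2) ?_ ?_
      · push_cast; exact h3
      · push_cast; exact h4
    | succ n ih =>
      rw [Function.iterate_succ_apply']
      refine ⟨AvX_nonneg ih.1, fun z h1 h2 h3 h4 => ?_⟩
      have h5 := AvX_low ih.1 (by positivity : 0 ≤ c / 3 ^ 4 / 3 ^ n) hm hm2 ih.2 z
        (by push_cast at h1 ⊢; linarith) (by push_cast at h2 ⊢; linarith) h3 h4
      rw [div_div] at h5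
      rw [pow_succ]
      exact h5
  intro z h1 h2 h3 h4
  have h5 := (hX 4).2 z (by push_cast; exact h1) (by push_cast; linarith) h3 (by linarith)
  unfold Av
  rw [div_div] at h5
  have e : (3 : ℝ) ^ 4 * 3 ^ 4 = 3 ^ 8 := by norm_num
  rw [e] at h5
  exact h5

/-- the standard bump is of order `κ⁻²` on a box -/
theorem bump_low {κ a : ℕ} (hκ : 400 ≤ κ) (ha : a = κ / 200) (p : Pt) : ∃ x : Pt, dn p x ≤ κ ∧
    ∀ y, dn x y ≤ 2 * a → 25 / 3 ^ 8 / (κ : ℝ) ^ 2 ≤ S743.bump κ p y := by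
  obtain ⟨m, hm⟩ : ∃ m : ℕ, m = κ / 5 := ⟨_, rfl⟩
  obtain ⟨m', hm'⟩ : ∃ m' : ℕ, m' = m / 2 := ⟨_, rfl⟩
  have hm0 : (0 : ℝ) < m := by
    have : 0 < m := by omega
    exact_mod_cast this
  have hκ0 : (0 : ℝ) < κ := by
    have : 0 < κ := by omega
    exact_mod_cast this
  have hlow := Av_low (f := S743.sq0 m) (m := m) (m' := m') (c := ((m : ℝ) ^ 2)⁻¹)
    (S743.sq0_nonneg m) (by positivity) hm' (by omega) (by
      intro z h1 h2 h3 h4
      unfold S743.sq0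
      rw [if_pos ⟨h1, by omega, h3, by omega⟩])
  refine ⟨(p.1 - 4 * m' + (2 * a : ℕ), p.2 - 4 * m' + (2 * a : ℕ)), ?_, ?_⟩
  · rw [dn_eq]
    simp only
    push_cast
    omega
  · intro y hy
    rw [dn_eq] at hy
    simp only at hy
    have h1 := hlow (y.1 - p.1, y.2 - p.2) (by simp only; omega) (by simp only; omega)
      (by simp only; omega) (by simp only; omega)
    unfold S743.bump
    rw [← hm]
    refine le_trans ?_ h1
    have h2 : 5 * (m : ℝ) ≤ κ := by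
      have : 5 * m ≤ κ := by omega
      exact_mod_cast this
    have h3 : 25 / (κ : ℝ) ^ 2 ≤ ((m : ℝ) ^ 2)⁻¹ := by
      rw [inv_eq_one_div, div_le_div_iff₀ (by positivity) (by positivity)]
      nlinarith
    have e : (25 : ℝ) / 3 ^ 8 / (κ : ℝ) ^ 2 = 25 / (κ : ℝ) ^ 2 / 3 ^ 8 := by ring
    rw [e]
    exact div_le_div_of_nonneg_right h3 (by positivity)

/-- **V2 for the standard bump** `S743.bump κ x` (mass one, support in `box x κ`). -/
theorem drop_bump : ∃ K : ℕ, 16 ≤ K ∧ ∃ c : ℝ, 0 < c ∧ ∀ (O1 O2 : Set Pt), O1.Finite → O2 ⊆ O1 →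
    ∀ (x : Pt) (κ : ℕ) (u1 u2 : Pt → ℝ), 400 ≤ κ → (∀ y, dn x y ≤ K * κ → y ∈ O1) →
    IsGreen O1 (S743.bump κ x) u1 → IsGreen O2 (S743.bump κ x) u2 →
    (∀ x' : Pt, dn x x' ≤ κ → ∀ r : ℕ, 4 * κ ≤ r → r ≤ K * κ → ∃ p, p ∉ O2 ∧ dn x' p = r) →
    c ≤ pair (S743.bump κ x) u1 - pair (S743.bump κ x) u2 := by
  obtain ⟨K0, hK2, hK⟩ := drop_pt_j
  obtain ⟨A0, hA0⟩ : ∃ A0 : ℝ, A0 = 25 / 3 ^ 8 / (4 * 160000) := ⟨_, rfl⟩
  have hA00 : 0 < A0 := by rw [hA0]; positivity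
  have hK0 : (0 : ℝ) < K0 := by exact_mod_cast (by omega : 0 < K0)
  refine ⟨16 * K0 + 1, by omega, A0 ^ 2 / (640000 * (K0 : ℝ) ^ 2), by positivity, ?_⟩
  intro O1 O2 hO1 hsub x κ u1 u2 hκ hbox hu1 hu2 hring
  obtain ⟨a, ha⟩ : ∃ a : ℕ, a = κ / 200 := ⟨_, rfl⟩
  obtain ⟨x', hx', hlow⟩ := bump_low hκ ha x
  have hκ0 : (0 : ℝ) < κ := by
    have : 0 < κ := by omega
    exact_mod_cast this
  have ha1 : 1 ≤ a := by omega
  have ha0 : (0 : ℝ) < a := by exact_mod_cast ha1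
  have hκa : (κ : ℝ) ≤ 400 * a := by
    have : κ ≤ 400 * a := by omega
    exact_mod_cast this
  have haκ : 200 * a ≤ κ := by omega
  have hjK : K0 * (200 * a) ≤ K0 * κ := Nat.mul_le_mul_left _ haκ
  have hnn : ∀ y ∈ O1, 0 ≤ S743.bump κ x y := fun y _ => S743.bump_nonneg κ x y
  have hφ : ∀ y, dn x' y ≤ 2 * a → 4 * A0 / (a : ℝ) ^ 2 ≤ S743.bump κ x y := by
    intro y hy
    refine le_trans ?_ (hlow y hy)
    have e : 4 * A0 / (a : ℝ) ^ 2 = 25 / 3 ^ 8 / (400 * (a : ℝ)) ^ 2 := by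
      rw [hA0]
      field_simp
      ring
    rw [e]
    apply div_le_div_of_nonneg_left (by positivity) (by positivity)
    exact pow_le_pow_left₀ hκ0.le hκa 2
  obtain ⟨h1, h2⟩ := hK O1 O2 hO1 hsub x' a 200 A0 (S743.bump κ x) u1 u2 ha1 (by norm_num)
    hA00.le
    (by
      intro y hy
      apply hbox
      have h3 := G45.dn_tri x x' y
      have h4 : 16 * K0 * (200 * a) = 16 * (K0 * (200 * a)) := by ring
      have h5 : (16 * K0 + 1) * κ = 16 * (K0 * κ) + κ := by ring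
      omega) hnn hφ hu1 hu2
    (by
      intro r h3 h4
      have h5 : 4 * K0 * (200 * a) = 4 * (K0 * (200 * a)) := by ring
      have h6 : (16 * K0 + 1) * κ = 16 * (K0 * κ) + κ := by ring
      exact hring x' hx' r (by omega) (by omega))
  have e1 := pair_eq_sum hO1 (φ := S743.bump κ x) (u := u1) hu1.off
  have e2 := pair_eq_sum hO1 (φ := S743.bump κ x) (u := u2)
    (fun y hy => hu2.off y (fun h => hy (hsub h)))
  rw [e1, e2, ← Finset.sum_sub_distrib]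
  have hsubs : box x' (2 * a) ⊆ hO1.toFinset := by
    intro y hy
    rw [Set.Finite.mem_toFinset]
    apply hbox
    have h3 := G45.dn_tri x x' y
    have h4 := G45.mem_box.1 hy
    have h5 : (16 * K0 + 1) * κ = 16 * (K0 * κ) + κ := by ring
    have h6 : 1 * κ ≤ K0 * κ := Nat.mul_le_mul_right _ (by omega)
    omega
  calc A0 ^ 2 / (640000 * (K0 : ℝ) ^ 2)
      = 16 * (a : ℝ) ^ 2 * (4 * A0 / (a : ℝ) ^ 2 * (A0 / (1024 * (K0 : ℝ) ^ 2 *
          ((200 : ℕ) : ℝ) ^ 2))) := by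
        push_cast
        field_simp
        ring
    _ ≤ (2 * ((2 * a : ℕ) : ℝ) + 1) ^ 2 * (4 * A0 / (a : ℝ) ^ 2 *
          (A0 / (1024 * (K0 : ℝ) ^ 2 * ((200 : ℕ) : ℝ) ^ 2))) := by
        apply mul_le_mul_of_nonneg_right _ (by positivity)
        push_cast
        nlinarith
    _ = ∑ _y ∈ box x' (2 * a), (4 * A0 / (a : ℝ) ^ 2 *
          (A0 / (1024 * (K0 : ℝ) ^ 2 * ((200 : ℕ) : ℝ) ^ 2))) := by
        rw [Finset.sum_const, card_box, nsmul_eq_mul]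
        push_cast
        ring
    _ ≤ ∑ y ∈ box x' (2 * a), S743.bump κ x y * (u1 y - u2 y) := by
        apply Finset.sum_le_sum
        intro y hy
        have h3 := G45.mem_box.1 hy
        exact mul_le_mul (hφ y h3) (h2 y (by omega)) (by positivity) (S743.bump_nonneg κ x y)
    _ ≤ ∑ y ∈ hO1.toFinset, S743.bump κ x y * (u1 y - u2 y) := by
        apply Finset.sum_le_sum_of_subset_of_nonneg hsubs
        intro y hy _
        exact mul_nonneg (S743.bump_nonneg κ x y) (sub_nonneg.2 (h1 y))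
    _ = _ := Finset.sum_congr rfl fun y _ => by ring

/-- a discrete path passes all rings between its ends -/
theorem ring_hit {g : ℕ → Pt} {e n : ℕ} (hen : e ≤ n)
    (hstep : ∀ i, e ≤ i → i < n → dn (g i) (g (i + 1)) ≤ 1) (x : Pt) {r : ℕ}
    (h0 : r ≤ dn x (g e)) (h1 : dn x (g n) ≤ r) : ∃ i, e ≤ i ∧ i ≤ n ∧ dn x (g i) = r := by
  induction n, hen using Nat.le_induction with
  | base => exact ⟨e, le_rfl, le_rfl, le_antisymm h1 h0⟩
  | succ n hn ih =>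
    by_cases h2 : dn x (g n) ≤ r
    · obtain ⟨i, h3, h4, h5⟩ := ih (fun i hi hi' => hstep i hi (by omega)) h2
      exact ⟨i, h3, by omega, h5⟩
    · refine ⟨n + 1, by omega, le_rfl, ?_⟩
      have h3 := hstep n hn (by omega)
      have h4 := G45.dn_tri x (g (n + 1)) (g n)
      rw [G45.dn_comm (g (n + 1)) (g n)] at h4
      omega

end Vale.Agent.P155.NT276
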