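import Vale.Agent.P155.E4.Mass

/-!
# P155, NT (no pinches), first moment: the far part of the layer function

`far_le`: if the source `φ` acts on nonnegative functions vanishing off `O` like a flux functional
(`what + e`), then the layer function of `φ` has bounded mass far from the support of `φ`.
-/

namespace Vale.Agent.P155.NT276

open Finset Vale.Agent.P155 Vale.Agent.P155.G45 Vale.Agent.P155.J Vale.Agent.P155.H12

/-- The probability of leaving the box `dn q y < 4ρ` through `O`. -/
theorem exists_leave {O : Set Pt} (hO : O.Finite) (q : Pt) {ρ : ℕ} (hρ : 1 ≤ ρ) :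
    ∃ w : Pt → ℝ, (∀ x, 0 ≤ w x) ∧ (∀ x, w x ≤ 1) ∧ (∀ x, x ∉ O → w x = 0) ∧
      (∀ x ∈ O, lap w x ≤ 0) ∧ (∀ x ∈ O, 4 * ρ ≤ dn q x → w x = 1) ∧
      ∀ v4 : Pt → ℝ, IsGreen O (fun y => if dn q y ≤ 4 * ρ then ((ρ : ℝ) ^ 2)⁻¹ else 0) v4 →
        ∀ x, dn q x ≤ 2 * ρ → w x ≤ v4 x := by
  classical
  set D : Set Pt := {y | y ∈ O ∧ dn q y < 4 * ρ} with hD
  have hDfin : D.Finite := hO.subset fun y hy => hy.1
  obtain ⟨w, hw1, hw2⟩ := exists_dirichlet hDfin (fun _ => 0) (fun y => if y ∈ O then 1 else 0)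
  have hle : ∀ x, w x ≤ 1 := by
    apply comparison hDfin (v := fun _ => 1)
    · intro y hy
      rw [lap_const]
      linarith [hw2 y hy]
    · intro y hy
      rw [hw1 y hy]
      split_ifs <;> norm_num
  have hge : ∀ x, 0 ≤ w x := by
    apply comparison hDfin (u := fun _ => 0)
    · intro y hy
      rw [lap_const]
      linarith [hw2 y hy]
    · intro y hy
      rw [hw1 y hy]
      split_ifs <;> norm_num
  have hoff : ∀ x, x ∉ O → w x = 0 := by
    intro x hx
    rw [hw1 x (fun h => hx h.1), if_neg hx]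
  have hone : ∀ x ∈ O, 4 * ρ ≤ dn q x → w x = 1 := by
    intro x hx h
    rw [hw1 x (fun h' => by have := h'.2; omega), if_pos hx]
  have hρ0 : (0 : ℝ) < ρ := by exact_mod_cast hρ
  refine ⟨w, hge, hle, hoff, ?_, hone, ?_⟩
  · intro x hx
    by_cases hxD : x ∈ D
    · linarith [hw2 x hxD]
    · have h1 : w x = 1 := by rw [hw1 x hxD, if_pos hx]
      unfold lap
      linarith [hle (x.1 + 1, x.2), hle (x.1 - 1, x.2), hle (x.1, x.2 + 1), hle (x.1, x.2 - 1)]
  · intro v4 hv4 x hx
    -- compare with the second moment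
    obtain ⟨v', hv'⟩ := exists_green hDfin (fun _ => (1 : ℝ))
    have hv'0 := green_nonneg hDfin hv' (fun _ _ => zero_le_one)
    have h1 : ∀ y, (4 * (ρ : ℝ) ^ 2) * w y ≤ sqd x y + 4 * v' y := by
      apply comparison hDfin
      · intro y hy
        rw [lap_add, lap_smul, lap_smul, lap_sqd]
        have := hw2 y hy
        have := hv'.eq y hy
        nlinarith
      · intro y hy
        rw [hv'.off y hy, mul_zero, add_zero, hw1 y hy]
        split_ifs with hyO
        · have h2 : 4 * ρ ≤ dn q y := by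
            by_contra hlt
            exact hy ⟨hyO, by omega⟩
          have h3 := dn_tri q x y
          have h4 : 2 * ρ ≤ dn x y := by omega
          have h5 : (2 * (ρ : ℝ)) ≤ dn x y := by exact_mod_cast h4
          have h6 := le_sqd x y
          nlinarith
        · rw [mul_zero]
          exact sqd_nonneg x y
    have h2 := h1 x
    rw [sqd_self, zero_add] at h2
    -- `v' ≤ ρ² v4`
    have h3 : ∀ y, v' y ≤ (ρ : ℝ) ^ 2 * v4 y := by
      have hv40 := green_nonneg hO hv4 (fun y _ => by split_ifs <;> positivity)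
      apply comparison hDfin
      · intro y hy
        rw [lap_smul]
        have h4 := hv'.eq y hy
        have h5 := hv4.eq y hy.1
        rw [if_pos hy.2.le] at h5
        have h6 : (ρ : ℝ) ^ 2 * ((ρ : ℝ) ^ 2)⁻¹ = 1 := mul_inv_cancel₀ (by positivity)
        nlinarith
      · intro y hy
        rw [hv'.off y hy]
        have := hv40 y
        positivity
    have h4 := h3 x
    have h5 : (4 * (ρ : ℝ) ^ 2) * w x ≤ (4 * (ρ : ℝ) ^ 2) * v4 x := by linarith
    exact le_of_mul_le_mul_left h5 (by positivity)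

open Classical in
/-- **The far part of the layer function.** -/
theorem far_le : ∃ C : ℝ, 0 < C ∧ ∀ (O : Set Pt) (hO : O.Finite), CPr O →
    ∀ (s ρ : ℕ) (Cc K0 : ℝ) (χ φ u ŵ e v4 : Pt → ℝ) (q : Pt), 1 ≤ s → s ≤ ρ → 0 ≤ K0 →
      IsCut O s Cc χ → IsGreen O φ u → (∀ y, 2 * ρ < dn q y → φ y = 0) →
      (∀ y, 0 ≤ ŵ y) → (∀ y, 2 * ρ < dn q y → ŵ y = 0) →
      (∀ y, 0 ≤ e y) → (∀ y, e y ≤ K0 / (ρ : ℝ) ^ 2) → (∀ y, 2 * ρ < dn q y → e y = 0) →
      (∀ v : Pt → ℝ, (∀ y, 0 ≤ v y) → (∀ y, y ∉ O → v y = 0) →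
        (∀ y ∈ O, dn q y ≤ 2 * ρ → lap v y = 0) →
        |∑ y ∈ hO.toFinset, φ y * v y| ≤ ∑ y ∈ hO.toFinset, (ŵ y + e y) * v y) →
      IsGreen O (fun y => if dn q y ≤ 4 * ρ then ((ρ : ℝ) ^ 2)⁻¹ else 0) v4 →
      ∀ S : Finset Pt, (∀ x ∈ S, 4 * ρ ≤ dn q x) →
        ∑ x ∈ S, |fL O φ χ u x| ≤
          C * (Cc + 1) * (∑ y ∈ hO.toFinset, ŵ y * v4 y + K0) := by
  obtain ⟨β, hβ, hSD, hOut⟩ := G1.decay
  obtain ⟨A, hA, hfl⟩ := fL_bound hβ (by norm_num) hSD
  obtain ⟨D, hD, hvis⟩ := visits_local hβ (by norm_num) hSD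
  refine ⟨100 * A * D * 25, by positivity, ?_⟩
  intro O hO hCP s ρ Cc K0 χ φ u ŵ e v4 q hs hsρ hK0 hχ hu hφ hw0 hwz he0 heK hez hflx hv4 S hS
  have hOq := exists_notMem hO
  have hCc := cut_C0_nonneg hχ
  have hs0 : (0 : ℝ) < s := by exact_mod_cast hs
  have hρ1 : 1 ≤ ρ := hs.trans hsρ
  have hρ0 : (0 : ℝ) < ρ := by exact_mod_cast hρ1
  obtain ⟨U, hU⟩ := exists_green hO (fun y => ŵ y + e y)
  have hU0 : ∀ y, 0 ≤ U y := green_nonneg hO hU (fun y _ => add_nonneg (hw0 y) (he0 y))
  -- domination far from the source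
  have hdom : ∀ y, 2 * ρ < dn q y → |u y| ≤ U y := by
    intro y hy
    by_cases hyO : y ∈ O
    · obtain ⟨G, hG⟩ := exists_green hO (fun z => if z = y then (1 : ℝ) else 0)
      have hG0 := green_nonneg hO hG (fun z _ => by split_ifs <;> norm_num)
      have h1 := hflx G hG0 hG.off (fun z hz hqz => by
        have := hG.eq z hz
        rw [if_neg (by rintro rfl; omega)] at this
        linarith)
      have h2 := green_symm' hO hu hG
      have h3 := green_symm' hO hU hG
      have e1 : ∀ f : Pt → ℝ, ∑ x ∈ hO.toFinset, f x * (if x = y then (1 : ℝ) else 0) = f y := by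
        intro f
        simp only [mul_ite, mul_one, mul_zero]
        rw [Finset.sum_ite_eq' hO.toFinset y f, if_pos (by simpa using hyO)]
      rw [e1] at h2 h3
      rw [h2, h3] at h1
      exact h1
    · rw [hu.off y hyO, abs_zero]
      exact hU0 y
  -- the dominating function
  set ub : Pt → ℝ := fun y => if 2 * ρ < dn q y then U y else max (U y) |u y| with hub
  have hubdom : ∀ y, |u y| ≤ ub y := by
    intro y
    simp only [hub]
    split_ifs with h
    · exact hdom y h
    · exact le_max_right _ _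
  obtain ⟨w, w0, w1, woff, wlap, wone, wv4⟩ := exists_leave hO q hρ1
  have hwv := wv4 v4 hv4
  -- pointwise bound
  set S' := S.filter (fun x => fL O φ χ u x ≠ 0) with hS'
  have hpt : ∀ x ∈ S', x ∈ O ∧ dF O x ≤ 2 * s ∧
      |fL O φ χ u x| ≤ 100 * A * (Cc + 1) / (s : ℝ) ^ 2 * U x := by
    intro x hx
    obtain ⟨hxS, hx0⟩ := Finset.mem_filter.1 hx
    obtain ⟨hxO, hx2⟩ := fL_supp hOq hs hχ hu hx0
    have hxq := hS x hxS
    refine ⟨hxO, hx2, ?_⟩
    rcases Nat.lt_or_ge (dF O x) s with h2 | h2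
    · exfalso
      apply hx0
      rw [fL_below hOq hχ hxO h2]
      exact hφ x (by omega)
    · have hfar : ∀ y, dn x y < s → 2 * ρ < dn q y := by
        intro y hy
        have := dn_tri q y x
        rw [dn_comm y x] at this
        omega
      have hnb : ∀ y, dn x y ≤ s → 2 * ρ < dn q y := by
        intro y hy
        have := dn_tri q y x
        rw [dn_comm y x] at this
        omega
      have h3 := hfl O s Cc χ φ u ub 0 x hOq hs hχ hu h2 le_rfl hubdom (by
          intro y hy
          have hyO : y ∈ O := mem_of_lt_dF (x := x) (by omega)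
          have h4 : lap ub y = lap U y := by
            have hsame : ∀ z, dn y z ≤ 1 → ub z = U z := by
              intro z hz
              have h5 := dn_tri x y z
              simp only [hub]
              rw [if_pos (hnb z (by omega))]
            unfold lap
            rw [hsame _ (by rw [dn_eq]; simp), hsame _ (by rw [dn_eq]; simp),
              hsame _ (by rw [dn_eq]; simp), hsame _ (by rw [dn_eq]; simp),
              hsame _ (by rw [dn_self]; omega)]
          rw [h4]
          have h5 := hU.eq y hyO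
          rw [hwz y (hfar y hy), hez y (hfar y hy), add_zero] at h5
          exact h5)
        (by
          intro y hy
          rw [hφ y (hfar y hy), abs_zero])
      have h6 : ub x = U x := by
        simp only [hub]
        rw [if_pos (hfar x (by rw [dn_self]; omega))]
      rw [h6, add_zero] at h3
      refine h3.trans (le_of_eq ?_)
      ring
  have hsum : ∑ x ∈ S, |fL O φ χ u x| = ∑ x ∈ S', |fL O φ χ u x| := by
    symm
    apply Finset.sum_subset (Finset.filter_subset _ _)
    intro x hxS hx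
    have : fL O φ χ u x = 0 := by
      by_contra hne
      exact hx (Finset.mem_filter.2 ⟨hxS, hne⟩)
    rw [this, abs_zero]
  rw [hsum]
  have hK : 0 ≤ 100 * A * (Cc + 1) / (s : ℝ) ^ 2 := by positivity
  have h1 : ∑ x ∈ S', |fL O φ χ u x| ≤ 100 * A * (Cc + 1) / (s : ℝ) ^ 2 * ∑ x ∈ S', U x := by
    rw [Finset.mul_sum]
    exact Finset.sum_le_sum fun x hx => (hpt x hx).2.2
  have h2 := hvis O hO hCP s hs S' (fun y => ŵ y + e y) U w (fun x hx => (hpt x hx).2.1) hU
    (fun y _ => add_nonneg (hw0 y) (he0 y)) w0 (fun x hx _ => wlap x hx)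
    (fun x hx => (wone x (hpt x hx).1 (hS x (Finset.mem_filter.1 hx).1)).ge)
  -- the mass of the source
  have h3 : ∑ x ∈ hO.toFinset, (ŵ x + e x) * w x ≤
      ∑ y ∈ hO.toFinset, ŵ y * v4 y + 25 * K0 := by
    have e1 : ∑ x ∈ hO.toFinset, (ŵ x + e x) * w x =
        ∑ x ∈ hO.toFinset, ŵ x * w x + ∑ x ∈ hO.toFinset, e x * w x := by
      rw [← Finset.sum_add_distrib]
      exact Finset.sum_congr rfl fun x _ => by ring
    rw [e1]
    apply add_le_add
    · refine Finset.sum_le_sum fun x _ => ?_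
      by_cases hx : 2 * ρ < dn q x
      · rw [hwz x hx, zero_mul, zero_mul]
      · exact mul_le_mul_of_nonneg_left (hwv x (by omega)) (hw0 x)
    · calc ∑ x ∈ hO.toFinset, e x * w x
          ≤ ∑ x ∈ hO.toFinset, (if x ∈ box q (2 * ρ) then K0 / (ρ : ℝ) ^ 2 else 0) := by
            refine Finset.sum_le_sum fun x _ => ?_
            by_cases hx : 2 * ρ < dn q x
            · rw [hez x hx, zero_mul, if_neg (fun h => by have := G45.mem_box.1 h; omega)]
            · rw [if_pos (G45.mem_box.2 (by omega))]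
              calc e x * w x ≤ K0 / (ρ : ℝ) ^ 2 * 1 :=
                    mul_le_mul (heK x) (w1 x) (w0 x) (by positivity)
                _ = _ := mul_one _
        _ ≤ ∑ _x ∈ box q (2 * ρ), K0 / (ρ : ℝ) ^ 2 := by
            rw [← Finset.sum_filter]
            apply Finset.sum_le_sum_of_subset_of_nonneg
            · intro x hx
              exact (Finset.mem_filter.1 hx).2
            · intro _ _ _
              positivity
        _ = (2 * (2 * (ρ : ℝ)) + 1) ^ 2 * (K0 / (ρ : ℝ) ^ 2) := by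
            rw [Finset.sum_const, card_box, nsmul_eq_mul]
            push_cast
            ring
        _ ≤ (25 * (ρ : ℝ) ^ 2) * (K0 / (ρ : ℝ) ^ 2) := by
            apply mul_le_mul_of_nonneg_right _ (by positivity)
            have : (1 : ℝ) ≤ ρ := by exact_mod_cast hρ1
            nlinarith
        _ = 25 * K0 := by field_simp
  have hws : 0 ≤ ∑ y ∈ hO.toFinset, ŵ y * v4 y := by
    have hv40 := green_nonneg hO hv4 (fun y _ => by split_ifs <;> positivity)
    exact Finset.sum_nonneg fun y _ => mul_nonneg (hw0 y) (hv40 y)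
  calc ∑ x ∈ S', |fL O φ χ u x|
      ≤ 100 * A * (Cc + 1) / (s : ℝ) ^ 2 *
          (D * (s : ℝ) ^ 2 * (∑ y ∈ hO.toFinset, ŵ y * v4 y + 25 * K0)) := by
        refine h1.trans (mul_le_mul_of_nonneg_left (h2.trans ?_) hK)
        exact mul_le_mul_of_nonneg_left h3 (by positivity)
    _ = 100 * A * D * (Cc + 1) * (∑ y ∈ hO.toFinset, ŵ y * v4 y + 25 * K0) := by
        field_simp
    _ ≤ 100 * A * D * (Cc + 1) * (25 * (∑ y ∈ hO.toFinset, ŵ y * v4 y + K0)) := by
        apply mul_le_mul_of_nonneg_left _ (by positivity)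
        linarith
    _ = _ := by ring

end Vale.Agent.P155.NT276
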