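import Vale.Agent.P155.NT276.Mono

/-!
# P155, NT (no pinches), first moment: the far part of the layer function, final form

`far_sum`: `φ` is `lap w` up to an error of order `1/ρ²` on `O2 ⊆ O1`, the boundary values of `w`
(on the boundary of `O1`) are below those of a function `wd` at the larger scale.
-/

namespace Vale.Agent.P155.NT276

open Finset Vale.Agent.P155 Vale.Agent.P155.G45 Vale.Agent.P155.J Vale.Agent.P155.H12

/-- `w` vanishes near `x`: so does its Laplacian -/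
theorem lap_eq_zero_of_far {w : Pt → ℝ} {q : Pt} {r : ℕ} (hw : ∀ y, r ≤ dn q y → w y = 0) {x : Pt}
    (hx : r < dn q x) : lap w x = 0 := by
  have hz : ∀ z, dn x z ≤ 1 → w z = 0 := by
    intro z hz
    apply hw
    have := dn_tri q z x
    rw [dn_comm z x] at this
    omega
  unfold lap
  rw [hz _ (by rw [dn_eq]; simp), hz _ (by rw [dn_eq]; simp), hz _ (by rw [dn_eq]; simp),
    hz _ (by rw [dn_eq]; simp), hz _ (by rw [dn_self]; omega)]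
  ring

theorem wh_far {O : Set Pt} {w : Pt → ℝ} {q : Pt} {r : ℕ} (hw : ∀ y, r ≤ dn q y → w y = 0) {x : Pt}
    (hx : r < dn q x) : wh O w x = 0 := by
  classical
  unfold wh
  apply sum_eq_zero
  intro a ha
  have h1 := mem_nbrs.1 (mem_filter.1 ha).1
  apply hw
  have h2 : dn x a ≤ 1 := by
    have h1' : |x.1 - a.1| + |x.2 - a.2| = 1 := by
      unfold Adj at h1
      exact h1
    rw [G45.dn_le_iff]
    have b1 := abs_le.1 (show |x.1 - a.1| ≤ 1 by have := abs_nonneg (x.2 - a.2); omega)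
    have b2 := abs_le.1 (show |x.2 - a.2| ≤ 1 by have := abs_nonneg (x.1 - a.1); omega)
    push_cast
    omega
  have := dn_tri q a x
  rw [dn_comm a x] at this
  omega

/-- The hypothesis `FLX` of `far_le` for `φ ≈ lap w`. -/
theorem flx_of {O : Set Pt} (hO : O.Finite) {φ w : Pt → ℝ} {q : Pt} {ρ : ℕ} {K0 : ℝ}
    (_hK0 : 0 ≤ K0) (hwn : ∀ y, 0 ≤ w y) (hwz : ∀ y, 2 * ρ ≤ dn q y → w y = 0)
    (hφ : ∀ y, 2 * ρ < dn q y → φ y = 0)
    (hφw : ∀ x ∈ O, |φ x - lap w x| ≤ K0 / (ρ : ℝ) ^ 2) {v : Pt → ℝ} (hv : ∀ y, 0 ≤ v y)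
    (hvO : ∀ y, y ∉ O → v y = 0) (hvh : ∀ y ∈ O, dn q y ≤ 2 * ρ → lap v y = 0) :
    |∑ y ∈ hO.toFinset, φ y * v y| ≤
      ∑ y ∈ hO.toFinset, (wh O w y + if dn q y ≤ 2 * ρ then K0 / (ρ : ℝ) ^ 2 else 0) * v y := by
  have hg := green_bd hO w hvO
  have h0 : ∑ x ∈ hO.toFinset, w x * lap v x = 0 := by
    apply sum_eq_zero
    intro x hx
    by_cases h : 2 * ρ ≤ dn q x
    · rw [hwz x h, zero_mul]
    · rw [hvh x (by simpa using hx) (by omega), mul_zero]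
  rw [h0, sub_zero] at hg
  have e1 : ∑ y ∈ hO.toFinset, φ y * v y = ∑ y ∈ hO.toFinset, wh O w y * v y +
      ∑ y ∈ hO.toFinset, (φ y - lap w y) * v y := by
    rw [hg, ← sum_add_distrib]
    apply sum_congr rfl
    intro y _
    ring
  have e2 : ∑ y ∈ hO.toFinset, (wh O w y + if dn q y ≤ 2 * ρ then K0 / (ρ : ℝ) ^ 2 else 0) * v y =
      ∑ y ∈ hO.toFinset, wh O w y * v y +
      ∑ y ∈ hO.toFinset, (if dn q y ≤ 2 * ρ then K0 / (ρ : ℝ) ^ 2 else 0) * v y := by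
    rw [← sum_add_distrib]
    apply sum_congr rfl
    intro y _
    ring
  rw [e1, e2]
  have h1 : |∑ y ∈ hO.toFinset, wh O w y * v y| = ∑ y ∈ hO.toFinset, wh O w y * v y :=
    abs_of_nonneg (sum_nonneg fun y _ => mul_nonneg (wh_nonneg hwn y) (hv y))
  refine (abs_add_le _ _).trans ?_
  rw [h1]
  refine add_le_add le_rfl ((abs_sum_le_sum_abs _ _).trans (sum_le_sum fun y hy => ?_))
  rw [abs_mul, abs_of_nonneg (hv y)]
  apply mul_le_mul_of_nonneg_right _ (hv y)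
  split_ifs with h
  · exact hφw y (by simpa using hy)
  · rw [hφ y (by omega), lap_eq_zero_of_far hwz (by omega), sub_zero, abs_zero]

/-- **The far part of the layer function, final form.** -/
theorem far_sum : ∃ C : ℝ, 0 < C ∧ ∀ (O1 O2 : Set Pt), O1.Finite → O2.Finite → O2 ⊆ O1 →
    CPr O1 → CPr O2 →
    ∀ (s ρ A : ℕ) (Cc K0 K1 : ℝ) (χ φ u w wd : Pt → ℝ) (q a : Pt), 1 ≤ s → s ≤ ρ → 0 ≤ K0 →
      0 ≤ K1 → IsCut O2 s Cc χ → IsGreen O2 φ u → (∀ y, 2 * ρ < dn q y → φ y = 0) →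
      a ∉ O1 → dn q a ≤ A * ρ →
      (∀ y, 0 ≤ w y) → (∀ y, 2 * ρ ≤ dn q y → w y = 0) →
      (∀ x ∈ O2, |φ x - lap w x| ≤ K0 / (ρ : ℝ) ^ 2) →
      (∀ y ∈ O1, y ∉ O2 → w y = 0) →
      (∀ y, 0 ≤ wd y) → (∀ y, wd y ≤ 1) → (∀ y, 2 * ρ < dn q y → wd y = 0) →
      (∀ y ∈ O1, lap wd y ≤ K1 / (ρ : ℝ) ^ 2) →
      (∀ y, y ∉ O1 → w y ≤ wd y) →
      ∀ S : Finset Pt, (∀ x ∈ S, 4 * ρ ≤ dn q x) →
        ∑ x ∈ S, |fL O2 φ χ u x| ≤ C * (Cc + 1) * (((A : ℝ) + 4) ^ 2 * (K1 + 1) + K0) := by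
  classical
  obtain ⟨C, hC, hfar⟩ := far_le
  obtain ⟨D, hD, hv4⟩ := wh_v4_le
  refine ⟨C * (D + 1), by positivity, ?_⟩
  intro O1 O2 h1 h2 hsub hCP1 hCP2 s ρ A Cc K0 K1 χ φ u w wd q a hs hsρ hK0 hK1 hχ hu hφ ha hqa
    hwn hwz hφw hw12 hd0 hd1 hdz hdl hwd S hS
  have hρ : 1 ≤ ρ := hs.trans hsρ
  have hρ0 : (0 : ℝ) < ρ := by exact_mod_cast hρ
  obtain ⟨v1, hv1⟩ := exists_green h1 (fun y => if dn q y ≤ 4 * ρ then ((ρ : ℝ) ^ 2)⁻¹ else 0)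
  obtain ⟨v2, hv2⟩ := exists_green h2 (fun y => if dn q y ≤ 4 * ρ then ((ρ : ℝ) ^ 2)⁻¹ else 0)
  have hCc := cut_C0_nonneg hχ
  have hf := hfar O2 h2 hCP2 s ρ Cc K0 χ φ u (wh O2 w)
    (fun y => if dn q y ≤ 2 * ρ then K0 / (ρ : ℝ) ^ 2 else 0) v2 q hs hsρ hK0 hχ hu hφ
    (fun y => wh_nonneg hwn y) (fun y hy => wh_far hwz hy) (fun y => by split_ifs <;> positivity)
    (fun y => by
      split_ifs
      · exact le_rfl
      · positivity)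
    (fun y hy => if_neg (by omega))
    (fun v hv hvO hvh => flx_of h2 hK0 hwn hwz hφ hφw hv hvO hvh) hv2 S hS
  have hm := far_mono h1 h2 hsub (fun y _ => by split_ifs <;> positivity) hv1 hv2
    (w1 := wh O1 wd) (w2 := wh O2 w) (fun x _ => wh_nonneg hd0 x) (fun x _ => by
      refine (wh_mono hwn x (fun a ha ha' => hw12 a ha ha')).trans ?_
      unfold wh
      exact sum_le_sum fun b hb => hwd b (mem_filter.1 hb).2)
  have hb := hv4 O1 h1 hCP1 ρ A K1 q a wd v1 hρ hK1 ha hqa hd0 hd1 hdz hdl hv1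
  have h3 : ∑ y ∈ h2.toFinset, wh O2 w y * v2 y + K0 ≤
      (D + 1) * (((A : ℝ) + 4) ^ 2 * (K1 + 1) + K0) := by
    have e : (D + 1) * (((A : ℝ) + 4) ^ 2 * (K1 + 1) + K0) =
      D * ((A : ℝ) + 4) ^ 2 * (K1 + 1) + ((A : ℝ) + 4) ^ 2 * (K1 + 1) + D * K0 + K0 := by ring
    have : 0 ≤ ((A : ℝ) + 4) ^ 2 * (K1 + 1) := by positivity
    have : 0 ≤ D * K0 := by positivity
    linarith
  calc ∑ x ∈ S, |fL O2 φ χ u x| ≤ C * (Cc + 1) * (∑ y ∈ h2.toFinset, wh O2 w y * v2 y + K0) := hf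
    _ ≤ C * (Cc + 1) * ((D + 1) * (((A : ℝ) + 4) ^ 2 * (K1 + 1) + K0)) :=
        mul_le_mul_of_nonneg_left h3 (by positivity)
    _ = _ := by ring

end Vale.Agent.P155.NT276
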