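import Vale.Agent.P155.NT276.Far
import Vale.Agent.P155.N924.Flux

/-!
# P155, NT (no pinches), first moment: the flux functional of the far part

`wh O w x`: total boundary weight of `w` seen from `x ∈ O`.  `green_bd`: Green's formula for it;
`wh_v4_le`: the functional of the potential of `1_{box q (4ρ)} / ρ²` is bounded; `far_mono`:
monotonicity in the domain.
-/

namespace Vale.Agent.P155.NT276

open Finset Vale.Agent.P155 Vale.Agent.P155.G45 Vale.Agent.P155.J Vale.Agent.P155.H12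

theorem lap_sum (u : Pt → ℝ) (x : Pt) : lap u x = ∑ y ∈ nbrs x, (u y - u x) := by
  have h1 : ((x.1 + 1, x.2) : Pt) ∉ ({(x.1 - 1, x.2), (x.1, x.2 + 1), (x.1, x.2 - 1)} :
      Finset Pt) := by
    simp only [mem_insert, mem_singleton, Prod.mk.injEq, not_or, not_and]
    omega
  have h2 : ((x.1 - 1, x.2) : Pt) ∉ ({(x.1, x.2 + 1), (x.1, x.2 - 1)} : Finset Pt) := by
    simp only [mem_insert, mem_singleton, Prod.mk.injEq, not_or, not_and]
    omega
  have h3 : ((x.1, x.2 + 1) : Pt) ∉ ({(x.1, x.2 - 1)} : Finset Pt) := by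
    simp only [mem_singleton, Prod.mk.injEq, not_and]
    omega
  unfold nbrs lap
  rw [sum_insert h1, sum_insert h2, sum_insert h3, sum_singleton]
  ring

open Classical in
/-- The boundary weight of `w` seen from `x`. -/
noncomputable def wh (O : Set Pt) (w : Pt → ℝ) (x : Pt) : ℝ :=
  ∑ a ∈ (nbrs x).filter (fun a => a ∉ O), w a

theorem wh_nonneg {O : Set Pt} {w : Pt → ℝ} (hw : ∀ a, 0 ≤ w a) (x : Pt) : 0 ≤ wh O w x :=
  sum_nonneg fun a _ => hw a

/-- Only the boundary values count. -/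
theorem wh_congr {O : Set Pt} {w w' : Pt → ℝ} (x : Pt)
    (h : ∀ a, Adj x a → a ∉ O → w a = w' a) : wh O w x = wh O w' x := by
  classical
  unfold wh
  apply sum_congr rfl
  intro a ha
  obtain ⟨h1, h2⟩ := mem_filter.1 ha
  exact h a (mem_nbrs.1 h1) h2

/-- A smaller domain whose new boundary does not meet the weight. -/
theorem wh_mono {O O' : Set Pt} {w : Pt → ℝ} (hw : ∀ a, 0 ≤ w a) (x : Pt)
    (h : ∀ a ∈ O, a ∉ O' → w a = 0) : wh O' w x ≤ wh O w x := by
  classical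
  have e : wh O' w x = ∑ a ∈ ((nbrs x).filter (fun a => a ∉ O')).filter (fun a => a ∉ O), w a := by
    unfold wh
    symm
    apply sum_subset (filter_subset _ _)
    intro a ha hna
    have h1 : a ∈ O := by
      by_contra h2
      exact hna (mem_filter.2 ⟨ha, h2⟩)
    exact h a h1 (mem_filter.1 ha).2
  rw [e]
  unfold wh
  apply sum_le_sum_of_subset_of_nonneg
  · intro a ha
    obtain ⟨h1, h2⟩ := mem_filter.1 ha
    exact mem_filter.2 ⟨(mem_filter.1 h1).1, h2⟩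
  · intro a _ _
    exact hw a

/-- **Green's formula** for the boundary weight. -/
theorem green_bd {O : Set Pt} (hO : O.Finite) (w : Pt → ℝ) {v : Pt → ℝ}
    (hv : ∀ x, x ∉ O → v x = 0) :
    ∑ x ∈ hO.toFinset, wh O w x * v x =
      ∑ x ∈ hO.toFinset, lap w x * v x - ∑ x ∈ hO.toFinset, w x * lap v x := by
  classical
  set U := hO.toFinset with hU
  have hmem : ∀ x, x ∈ U ↔ x ∈ O := fun x => by simp [hU]
  have e1 : ∀ x, lap w x * v x - w x * lap v x = ∑ y ∈ nbrs x, (w y * v x - w x * v y) := by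
    intro x
    rw [lap_sum, lap_sum, sum_mul, mul_sum, ← sum_sub_distrib]
    apply sum_congr rfl
    intro y _
    ring
  rw [← sum_sub_distrib]
  have e2 : ∑ x ∈ U, (lap w x * v x - w x * lap v x) =
      ∑ x ∈ U, ∑ y ∈ (nbrs x).filter (fun y => y ∈ U), (w y * v x - w x * v y) +
      ∑ x ∈ U, ∑ y ∈ (nbrs x).filter (fun y => y ∉ U), (w y * v x - w x * v y) := by
    rw [← sum_add_distrib]
    apply sum_congr rfl
    intro x _
    rw [e1, sum_filter_add_sum_filter_not]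
  have e3 : ∑ x ∈ U, ∑ y ∈ (nbrs x).filter (fun y => y ∈ U), (w y * v x - w x * v y) = 0 := by
    have h := NT.inner_swap U (fun x y => w y * v x - w x * v y)
    have h' : ∑ x ∈ U, ∑ y ∈ (nbrs x).filter (fun y => y ∈ U), (w x * v y - w y * v x) =
        - ∑ x ∈ U, ∑ y ∈ (nbrs x).filter (fun y => y ∈ U), (w y * v x - w x * v y) := by
      rw [← sum_neg_distrib]
      apply sum_congr rfl
      intro x _
      rw [← sum_neg_distrib]
      apply sum_congr rfl
      intro y _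
      ring
    rw [h'] at h
    linarith
  rw [e2, e3, zero_add]
  apply sum_congr rfl
  intro x _
  unfold wh
  rw [sum_mul]
  have e4 : (nbrs x).filter (fun a => a ∉ O) = (nbrs x).filter (fun y => y ∉ U) := by
    apply filter_congr
    intro a _
    rw [hmem]
  rw [e4]
  apply sum_congr rfl
  intro a ha
  have : a ∉ O := fun h => (mem_filter.1 ha).2 ((hmem a).2 h)
  rw [hv a this, mul_zero, sub_zero]

/-- **Monotonicity in the domain.** -/
theorem far_mono {O1 O2 : Set Pt} (h1 : O1.Finite) (h2 : O2.Finite) (hsub : O2 ⊆ O1)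
    {ψ v1 v2 w1 w2 : Pt → ℝ} (hψ : ∀ y ∈ O1, 0 ≤ ψ y) (hv1 : IsGreen O1 ψ v1)
    (hv2 : IsGreen O2 ψ v2) (hw0 : ∀ x ∈ O1, 0 ≤ w1 x) (hw : ∀ x ∈ O2, w2 x ≤ w1 x) :
    ∑ x ∈ h2.toFinset, w2 x * v2 x ≤ ∑ x ∈ h1.toFinset, w1 x * v1 x := by
  have hv10 := green_nonneg h1 hv1 hψ
  have hv20 := green_nonneg h2 hv2 (fun y hy => hψ y (hsub hy))
  have hle : ∀ x, v2 x ≤ v1 x := by
    apply green_le_super h2 hv2
    · intro x hx
      rw [hv1.eq x (hsub hx)]
    · intro x _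
      exact hv10 x
  calc ∑ x ∈ h2.toFinset, w2 x * v2 x ≤ ∑ x ∈ h2.toFinset, w1 x * v1 x := by
        refine sum_le_sum fun x hx => ?_
        have hx' : x ∈ O2 := by simpa using hx
        exact mul_le_mul (hw x hx') (hle x) (hv20 x) (hw0 x (hsub hx'))
    _ ≤ ∑ x ∈ h1.toFinset, w1 x * v1 x := by
        apply sum_le_sum_of_subset_of_nonneg
        · intro x hx
          simp only [Set.Finite.mem_toFinset] at hx ⊢
          exact hsub hx
        · intro x hx _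
          exact mul_nonneg (hw0 x (by simpa using hx)) (hv10 x)

/-- The potential of `1_{box q (4ρ)} / ρ²` is bounded, if `O` has a boundary point near `q`. -/
theorem v4_le : ∃ C : ℝ, 0 < C ∧ ∀ (O : Set Pt), O.Finite → CPr O →
    ∀ (ρ A : ℕ) (q a : Pt) (v4 : Pt → ℝ), 1 ≤ ρ → a ∉ O → dn q a ≤ A * ρ →
      IsGreen O (fun y => if dn q y ≤ 4 * ρ then ((ρ : ℝ) ^ 2)⁻¹ else 0) v4 →
      ∀ x, v4 x ≤ C * ((A : ℝ) + 4) ^ 2 := by
  obtain ⟨β, hβ, hSD, hOut⟩ := G1.decay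
  obtain ⟨D, hD, hpot⟩ := H904.bump_pot hβ (by norm_num) hSD hOut hβ le_rfl
  refine ⟨D, hD, ?_⟩
  intro O hO hCP ρ A q a v4 hρ ha hqa hv4 x
  have hρ0 : (0 : ℝ) < ρ := by exact_mod_cast hρ
  have h1 : 1 ≤ (A + 4) * ρ := Nat.one_le_iff_ne_zero.2 (by positivity)
  refine (hpot O hO hCP a ((A + 4) * ρ) (((A : ℝ) + 4) ^ 2) _ v4 ha h1 (by positivity)
    (fun z => ?_) (fun z => ?_) (fun z hz => ?_) hv4 x).1
  · split_ifs <;> positivity
  · have e : ((A : ℝ) + 4) ^ 2 / (((A + 4) * ρ : ℕ) : ℝ) ^ 2 = ((ρ : ℝ) ^ 2)⁻¹ := by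
      push_cast
      field_simp
    rw [e]
    split_ifs
    · exact le_rfl
    · positivity
  · have hz' : dn q z ≤ 4 * ρ := by
      by_contra h
      exact hz (if_neg h)
    have h2 := dn_tri a q z
    rw [dn_comm a q] at h2
    have : A * ρ + 4 * ρ = (A + 4) * ρ := by ring
    omega

/-- **The flux functional of the potential is bounded.** -/
theorem wh_v4_le : ∃ C : ℝ, 0 < C ∧ ∀ (O : Set Pt) (hO : O.Finite), CPr O →
    ∀ (ρ A : ℕ) (K1 : ℝ) (q a : Pt) (w v4 : Pt → ℝ), 1 ≤ ρ → 0 ≤ K1 → a ∉ O → dn q a ≤ A * ρ →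
      (∀ y, 0 ≤ w y) → (∀ y, w y ≤ 1) → (∀ y, 2 * ρ < dn q y → w y = 0) →
      (∀ y ∈ O, lap w y ≤ K1 / (ρ : ℝ) ^ 2) →
      IsGreen O (fun y => if dn q y ≤ 4 * ρ then ((ρ : ℝ) ^ 2)⁻¹ else 0) v4 →
      ∑ x ∈ hO.toFinset, wh O w x * v4 x ≤ C * ((A : ℝ) + 4) ^ 2 * (K1 + 1) := by
  obtain ⟨C, hC, hv⟩ := v4_le
  refine ⟨81 * C + 81, by positivity, ?_⟩
  intro O hO hCP ρ A K1 q a w v4 hρ hK1 ha hqa hw0 hw1 hwz hlap hv4
  have hb := hv O hO hCP ρ A q a v4 hρ ha hqa hv4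
  have hρ0 : (0 : ℝ) < ρ := by exact_mod_cast hρ
  have hv0 := green_nonneg hO hv4 (fun y _ => by split_ifs <;> positivity)
  rw [green_bd hO w hv4.off]
  have h25 : ∀ c : ℝ, 0 ≤ c → ∑ x ∈ hO.toFinset, (if dn q x ≤ 4 * ρ then c / (ρ : ℝ) ^ 2 else 0) ≤
      81 * c := by
    intro c hc
    calc ∑ x ∈ hO.toFinset, (if dn q x ≤ 4 * ρ then c / (ρ : ℝ) ^ 2 else 0)
        ≤ ∑ _x ∈ box q (4 * ρ), c / (ρ : ℝ) ^ 2 := by
          rw [← Finset.sum_filter]
          apply Finset.sum_le_sum_of_subset_of_nonneg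
          · intro x hx
            exact G45.mem_box.2 (Finset.mem_filter.1 hx).2
          · intro _ _ _
            positivity
      _ = (2 * (4 * (ρ : ℝ)) + 1) ^ 2 * (c / (ρ : ℝ) ^ 2) := by
          rw [Finset.sum_const, card_box, nsmul_eq_mul]
          push_cast
          ring
      _ ≤ (81 * (ρ : ℝ) ^ 2) * (c / (ρ : ℝ) ^ 2) := by
          apply mul_le_mul_of_nonneg_right _ (by positivity)
          have : (1 : ℝ) ≤ ρ := by exact_mod_cast hρ
          nlinarith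
      _ = 81 * c := by field_simp
  have h1 : ∑ x ∈ hO.toFinset, lap w x * v4 x ≤ 81 * (K1 * (C * ((A : ℝ) + 4) ^ 2)) := by
    refine le_trans (sum_le_sum fun x hx => ?_) (h25 _ (by positivity))
    have hxO : x ∈ O := by simpa using hx
    by_cases hqx : dn q x ≤ 4 * ρ
    · rw [if_pos hqx]
      calc lap w x * v4 x ≤ (K1 / (ρ : ℝ) ^ 2) * v4 x :=
            mul_le_mul_of_nonneg_right (hlap x hxO) (hv0 x)
        _ ≤ (K1 / (ρ : ℝ) ^ 2) * (C * ((A : ℝ) + 4) ^ 2) :=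
            mul_le_mul_of_nonneg_left (hb x) (by positivity)
        _ = _ := by ring
    · rw [if_neg hqx]
      have h0 : lap w x = 0 := by
        have hz : ∀ z, dn x z ≤ 1 → w z = 0 := by
          intro z hz
          apply hwz
          have := dn_tri q z x
          rw [dn_comm z x] at this
          omega
        unfold lap
        rw [hz _ (by rw [dn_eq]; simp), hz _ (by rw [dn_eq]; simp), hz _ (by rw [dn_eq]; simp),
          hz _ (by rw [dn_eq]; simp), hz _ (by rw [dn_self]; omega)]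
        ring
      rw [h0, zero_mul]
  have h2 : - ∑ x ∈ hO.toFinset, w x * lap v4 x ≤ 81 * 1 := by
    rw [← sum_neg_distrib]
    refine le_trans (sum_le_sum fun x hx => ?_) (h25 1 zero_le_one)
    have hxO : x ∈ O := by simpa using hx
    have h3 := hv4.eq x hxO
    have h4 : -(w x * lap v4 x) = w x * (if dn q x ≤ 4 * ρ then ((ρ : ℝ) ^ 2)⁻¹ else 0) := by
      rw [← h3]
      ring
    rw [h4]
    split_ifs
    · rw [one_div]
      exact mul_le_of_le_one_left (by positivity) (hw1 x)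
    · rw [mul_zero]
  have h16 : (16 : ℝ) ≤ ((A : ℝ) + 4) ^ 2 := by
    have : (0 : ℝ) ≤ A := Nat.cast_nonneg A
    nlinarith
  have h5 : 81 * (K1 * (C * ((A : ℝ) + 4) ^ 2)) + 81 * 1 ≤
      (81 * C + 81) * ((A : ℝ) + 4) ^ 2 * (K1 + 1) := by
    have e : (81 * C + 81) * ((A : ℝ) + 4) ^ 2 * (K1 + 1) =
        81 * (K1 * (C * ((A : ℝ) + 4) ^ 2)) + 81 * C * ((A : ℝ) + 4) ^ 2 +
          81 * ((A : ℝ) + 4) ^ 2 * K1 + 81 * ((A : ℝ) + 4) ^ 2 := by ring
    rw [e]
    have : 0 ≤ 81 * C * ((A : ℝ) + 4) ^ 2 := by positivity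
    have : 0 ≤ 81 * ((A : ℝ) + 4) ^ 2 * K1 := by positivity
    linarith
  linarith

end Vale.Agent.P155.NT276
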