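import Vale.Agent.P155.NT276.Pigeon

/-!
# P155, NT: `OneStep` and `US` in a class of domains; `OneStepF F` from `T1P`, `CountP`, `USF F`
-/

namespace Vale.Agent.P155.NT276

open Finset Vale.Agent.P155 T802 T905 J NT Function Skel NT802

/-- `OneStep` in the class `F` of pairs (scale, domain) -/
def OneStepF (F : ℕ → Temp → Prop) : Prop :=
  ∀ c δ d ε : ℝ, 0 < c → 0 < δ → 0 < d → 0 < ε → ∃ η : ℝ, 0 < η ∧ ∃ R0 : ℕ, ∀ R : ℕ, R0 ≤ R →
  ∀ T : Temp, F R T → Fits T R → ∀ (xS : ℤ) (q : Pt) (r r1 r' k : ℕ), c * R ≤ r → r ≤ R →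
  (16 * r : ℤ) ≤ |q.1 - xS| → r ≤ r' → (r' : ℝ) + δ * R ≤ r1 → r1 + 3 ≤ 2 * r →
  Pr T.V (fun ω => SepN T xS ω q r k r1 ⌊d * R⌋₊ ∧ TouN T xS ω q r k r' ⌊η * R⌋₊) ≤ ε

/-- **US** (no macroscopic gluing) in the class `F` -/
def USF (F : ℕ → Temp → Prop) : Prop :=
  ∀ c δ d l ε : ℝ, 0 < c → 0 < δ → 0 < d → 0 < l → 0 < ε → ∃ η0 : ℝ, 0 < η0 ∧
  ∀ η : ℝ, 0 < η → η ≤ η0 → ∃ R0 : ℕ, ∀ R : ℕ, R0 ≤ R →
  ∀ T : Temp, F R T → Fits T R → ∀ (xS : ℤ) (q : Pt) (r r1 r2 k : ℕ), c * R ≤ r → r ≤ R →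
  (16 * r : ℤ) ≤ |q.1 - xS| → r ≤ r2 → (r2 : ℝ) + δ * R ≤ r1 → r1 + 3 ≤ 2 * r →
  Pr T.V (fun ω => SepN T xS ω q r k r1 ⌊d * R⌋₊ ∧
    Glued T xS ω q r k r2 ⌊η * R⌋₊ ⌊l * R⌋₊) ≤ ε

theorem OneStep_iff : OneStepF (fun _ _ => True) ↔ OneStep := by
  unfold OneStepF OneStep
  simp only [true_imp_iff]

open Classical in
/-- **OneStep from T1, COUNT and US**, in the class `F`. -/
theorem onestepF_of {F : ℕ → Temp → Prop} (h1 : T1P) (h2 : CountP) (h3 : USF F) : OneStepF F := by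
  intro c δ d ε hc hδ hd hε
  obtain ⟨C, hC, h2⟩ := h2 c δ d hc hδ hd
  obtain ⟨K, hK⟩ := exists_nat_ge (max 1 (3 * C / ε))
  have hK1 : (1 : ℝ) ≤ K := (le_max_left _ _).trans hK
  have hKC : C ≤ K * (ε / 3) := by
    have := (le_max_right _ _).trans hK
    rw [div_le_iff₀ hε] at this
    linarith
  have hK0 : (0 : ℝ) < K := by linarith
  obtain ⟨m, hm⟩ : ∃ m : ℕ, m = 3 * (K + 1) := ⟨_, rfl⟩
  have hm1 : 1 ≤ m := by omega
  have hm0 : (0 : ℝ) < m := by exact_mod_cast (by omega : 0 < m)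
  obtain ⟨ζ, hζ⟩ : ∃ ζ : ℝ, ζ = δ / (2 * m) := ⟨_, rfl⟩
  have hζ0 : 0 < ζ := by rw [hζ]; positivity
  obtain ⟨η1, hη1, h1⟩ := h1 c (δ / 4) d ζ (ε / (3 * m)) hc (by positivity) hd hζ0 (by positivity)
  obtain ⟨η2, hη2, h2⟩ := h2 m hm1
  obtain ⟨η3, hη3, h3⟩ := h3 c (δ / 4) d ζ (ε / 3) hc (by positivity) hd hζ0 (by positivity)
  obtain ⟨η, hη⟩ : ∃ η : ℝ, η = min η1 (min η2 η3) := ⟨_, rfl⟩
  have hη0 : 0 < η := by rw [hη]; exact lt_min hη1 (lt_min hη2 hη3)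
  obtain ⟨R1, h1⟩ := h1 η hη0 (by rw [hη]; exact min_le_left _ _)
  obtain ⟨R2, h2⟩ := h2 η hη0 (by rw [hη]; exact (min_le_right _ _).trans (min_le_left _ _))
  obtain ⟨R3, h3⟩ := h3 η hη0 (by rw [hη]; exact (min_le_right _ _).trans (min_le_right _ _))
  obtain ⟨R4, hR4⟩ := exists_nat_ge (max (1 / η) (max (2 / ζ) (max (1 / c) (4 * m / δ))))
  refine ⟨η, hη0, max (max R1 R2) (max R3 (max R4 1)), ?_⟩
  intro R hR T hF hfit xS q r r1 r' k hcr hrR hx hrr' hr' hr1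
  have hR1 : R1 ≤ R := (le_max_left _ _).trans ((le_max_left _ _).trans hR)
  have hR2 : R2 ≤ R := (le_max_right _ _).trans ((le_max_left _ _).trans hR)
  have hR3 : R3 ≤ R := (le_max_left _ _).trans ((le_max_right _ _).trans hR)
  have hR4' : R4 ≤ R := (le_max_left _ _).trans ((le_max_right _ _).trans ((le_max_right _ _).trans hR))
  have hR5 : 1 ≤ R := (le_max_right _ _).trans ((le_max_right _ _).trans ((le_max_right _ _).trans hR))
  have hRr : (R4 : ℝ) ≤ R := by exact_mod_cast hR4'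
  have hRp : (0 : ℝ) < R := by exact_mod_cast hR5
  have e1 : 1 ≤ η * R := by
    have := ((le_max_left _ _).trans hR4).trans hRr
    rw [div_le_iff₀ hη0] at this
    linarith
  have e2 : 2 ≤ ζ * R := by
    have := ((le_max_left _ _).trans ((le_max_right _ _).trans hR4)).trans hRr
    rw [div_le_iff₀ hζ0] at this
    linarith
  have e3 : 1 ≤ c * R := by
    have := ((le_max_left _ _).trans ((le_max_right _ _).trans ((le_max_right _ _).trans hR4))).trans hRr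
    rw [div_le_iff₀ hc] at this
    linarith
  have e4 : 4 * m ≤ δ * R := by
    have := ((le_max_right _ _).trans ((le_max_right _ _).trans ((le_max_right _ _).trans hR4))).trans hRr
    rw [div_le_iff₀ hδ] at this
    linarith
  have hr0 : 1 ≤ r := by
    have : (1 : ℝ) ≤ r := e3.trans hcr
    exact_mod_cast this
  obtain ⟨h, hh⟩ : ∃ h : ℕ, h = ⌊η * R⌋₊ := ⟨_, rfl⟩
  have hh1 : 1 ≤ h := by
    rw [hh]
    exact Nat.le_floor (by exact_mod_cast e1)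
  obtain ⟨w, hw⟩ : ∃ w : ℕ, w = ⌈ζ * R⌉₊ := ⟨_, rfl⟩
  have hw1 : ζ * R ≤ w := by rw [hw]; exact Nat.le_ceil _
  have hw2 : (w : ℝ) ≤ ζ * R + 1 := by rw [hw]; exact (Nat.ceil_lt_add_one (by positivity)).le
  have hw3 : 2 ≤ w := by
    have : (2 : ℝ) ≤ w := e2.trans hw1
    exact_mod_cast this
  set ρ : ℕ → ℕ := fun i => r' + i * w with hρ
  have hρs : ∀ i, ρ (i + 1) = ρ i + w := fun i => by simp only [hρ]; ring
  have hρm : (ρ m : ℝ) + δ / 4 * R ≤ r1 := by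
    have e5 : (m : ℝ) * w ≤ m * (ζ * R + 1) := mul_le_mul_of_nonneg_left hw2 hm0.le
    have e6 : (m : ℝ) * (ζ * R + 1) = δ / 2 * R + m := by
      rw [hζ]
      field_simp
    have e7 : (ρ m : ℝ) = r' + m * w := by simp only [hρ]; push_cast; ring
    rw [e7]
    nlinarith
  have hρle : ∀ i ≤ m, (ρ i : ℝ) + δ / 4 * R ≤ r1 := by
    intro i hi
    have e5 : ρ i ≤ ρ m := by
      simp only [hρ]
      have := Nat.mul_le_mul_right w hi
      omega
    have e6 : (ρ i : ℝ) ≤ ρ m := by exact_mod_cast e5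
    linarith
  have hρ1 : ∀ i ≤ m, ρ i + 3 ≤ 2 * r := by
    intro i hi
    have e5 := hρle i hi
    have e6 : (ρ i : ℝ) ≤ r1 := by nlinarith
    have e7 : ρ i ≤ r1 := by exact_mod_cast e6
    omega
  have hrρ : ∀ i, r ≤ ρ i := fun i => by simp only [hρ]; omega
  have hρr : ∀ i < m, (ρ i : ℝ) + ζ * R ≤ ρ (i + 1) := by
    intro i _
    rw [hρs]
    push_cast
    linarith
  rw [← hh]
  have h1 := h1 R hR1 T hfit xS q r r1
  have h2 := h2 R hR2 T hfit xS q r r1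
  have h3 := h3 R hR3 T hF hfit xS q r r1
  rw [← hh] at h1 h2 h3
  -- the three bad events
  have b1 : ∀ i ∈ Finset.range m, Pr T.V (fun ω => SepN T xS ω q r k r1 ⌊d * R⌋₊ ∧
      FirstIn T xS ω q r k (ρ i) (ρ (i + 1)) h) ≤ ε / (3 * m) := by
    intro i hi
    rw [Finset.mem_range] at hi
    exact h1 (ρ i) (ρ (i + 1)) k hcr hrR hx (hrρ i) (hρr i hi)
      (hρle (i + 1) (by omega)) hr1
  have b2 : Ex T.V (fun ω => if SepN T xS ω q r k r1 ⌊d * R⌋₊ then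
      (((Finset.range m).filter (fun i =>
        Pass T xS ω q r k (ρ i) (ρ (i + 1)) h)).card : ℝ) else 0) ≤ C :=
    h2 k ρ hcr hrR hx (hrρ 0) (by
      intro i hi
      have := hρr i hi
      rw [hζ] at this
      exact this) hρm hr1
  have b3 : Pr T.V (fun ω => SepN T xS ω q r k r1 ⌊d * R⌋₊ ∧
      Glued T xS ω q r k (ρ m) h ⌊ζ * R⌋₊) ≤ ε / 3 :=
    h3 (ρ m) k hcr hrR hx (hrρ m) hρm hr1
  have b2' := E.markov T.V (fun ω => if SepN T xS ω q r k r1 ⌊d * R⌋₊ then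
      (((Finset.range m).filter (fun i =>
        Pass T xS ω q r k (ρ i) (ρ (i + 1)) h)).card : ℝ) else 0)
    (fun ω _ => by split_ifs <;> positivity) hK0
  -- the inclusion of events
  have hincl : ∀ ω ∈ DD T.V, (SepN T xS ω q r k r1 ⌊d * R⌋₊ ∧ TouN T xS ω q r k r' h) →
      ((∃ i ∈ Finset.range m, SepN T xS ω q r k r1 ⌊d * R⌋₊ ∧
        FirstIn T xS ω q r k (ρ i) (ρ (i + 1)) h) ∨
      (K : ℝ) < (if SepN T xS ω q r k r1 ⌊d * R⌋₊ then
        (((Finset.range m).filter (fun i =>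
          Pass T xS ω q r k (ρ i) (ρ (i + 1)) h)).card : ℝ) else 0)) ∨
      (SepN T xS ω q r k r1 ⌊d * R⌋₊ ∧ Glued T xS ω q r k (ρ m) h ⌊ζ * R⌋₊) := by
    rintro ω hω ⟨hs, ht⟩
    by_contra hcon
    push Not at hcon
    obtain ⟨⟨c1, c2⟩, c3⟩ := hcon
    rw [if_pos hs] at c2
    have c2' : ((Finset.range m).filter (fun i =>
          Pass T xS ω q r k (ρ i) (ρ (i + 1)) h)).card ≤ K := by exact_mod_cast c2
    have W := walk hω xS
    have hlt := ht.lt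
    refine c3 hs ?_
    obtain ⟨n1, n2, g1, g2, g3, g4, g5⟩ := glue
      (near := fun h p => ∃ a, a ∉ ON T xS ω q r k ∧ dn p a ≤ h)
      (g := gN T xS ω) (e := eN T xS ω q r k) (f := xN T xS ω q r k) (q := q) (h := h) (m := m)
      (K := K) (l := ⌊ζ * R⌋₊) (ρ := ρ)
      (by
        rintro a b hab ⟨x, hx1, hx2⟩
        refine ⟨x, hx1, ?_⟩
        have := G45.dn_tri a b x
        omega)
      (fun n hn1 hn2 => exc_step W hω hr0 hx hn1 hn2)
      (fun i _ => by rw [hρs]; omega)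
      (fun i _ => by
        rw [hρs, hw]
        have : ⌊ζ * R⌋₊ ≤ ⌈ζ * R⌉₊ := Nat.floor_le_ceil _
        omega)
      (by
        have := entry_dn W hω hx hlt
        have h5 := hρ1 m le_rfl
        change 2 * r ≤ dn q (gN T xS ω (eN T xS ω q r k)) at this
        omega)
      (by
        obtain ⟨i, i1, i2, i3, i4⟩ := ht
        refine ⟨i, i1, i2, ?_, i4⟩
        have : ρ 0 = r' := by simp [hρ]
        rw [this]
        exact i3)
      (fun i hi hf => c1 i (Finset.mem_range.2 hi) hs hf)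
      (fun i => Pass T xS ω q r k (ρ i) (ρ (i + 1)) h)
      (fun i hi => hi) c2' (by omega)
    exact ⟨n1, n2, g1, g2, g3, g4, g5⟩
  refine (E.Pr_mono hincl).trans ?_
  refine (E.Pr_or_le T.V _ _).trans ?_
  have t1 := E.Pr_or_le T.V (fun ω => ∃ i ∈ Finset.range m, SepN T xS ω q r k r1 ⌊d * R⌋₊ ∧
        FirstIn T xS ω q r k (ρ i) (ρ (i + 1)) h)
    (fun ω => (K : ℝ) < (if SepN T xS ω q r k r1 ⌊d * R⌋₊ then
        (((Finset.range m).filter (fun i =>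
          Pass T xS ω q r k (ρ i) (ρ (i + 1)) h)).card : ℝ) else 0))
  have t2 := E.Pr_exists_le_card T.V (Finset.range m) (fun i ω => SepN T xS ω q r k r1 ⌊d * R⌋₊ ∧
        FirstIn T xS ω q r k (ρ i) (ρ (i + 1)) h) b1
  rw [Finset.card_range] at t2
  have t3 : (m : ℝ) * (ε / (3 * m)) = ε / 3 := by field_simp
  have t4 : (K : ℝ)⁻¹ * Ex T.V (fun ω => if SepN T xS ω q r k r1 ⌊d * R⌋₊ then
      (((Finset.range m).filter (fun i =>
        Pass T xS ω q r k (ρ i) (ρ (i + 1)) h)).card : ℝ) else 0) ≤ ε / 3 := by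
    rw [inv_mul_le_iff₀ hK0]
    linarith
  linarith

end Vale.Agent.P155.NT276
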