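import Vale.Agent.P155.NT802.Main

/-!
# P155, NT: the exact statements of the blocks `T1P`, `CountP`, `US`

`OneStep` follows from them by the pigeonhole principle over annuli (`NT276/Pigeon.lean`).
-/

namespace Vale.Agent.P155.NT276

open Finset Vale.Agent.P155 T802 T905 J NT Function Skel NT802

section

variable (T : Temp) (xS : ℤ) (ω : Conf) (q : Pt) (r : ℕ)

/-- end of the excursion `k` -/
noncomputable def xN (k : ℕ) : ℕ := xK xS ω (Tm.tm T.V xS ω) (Tm.M T.V xS ω) q r (k + 1)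

/-- the tip at the time `n` -/
noncomputable def gN (n : ℕ) : Pt := pt' xS ω (Tm.tm T.V xS ω n)

/-- the free faces at the beginning of the excursion `k` -/
noncomputable def ON (k : ℕ) : Set Pt := OE T (EK xS ω (Tm.tm T.V xS ω) (Tm.M T.V xS ω) q r k)

/-- at the time `n` the tip is at distance at most `h` of a face which is not free before the
excursion `k` -/
def Near (k h n : ℕ) : Prop := ∃ a, a ∉ ON T xS ω q r k ∧ dn (gN T xS ω n) a ≤ h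

/-- **the first touching in `box q ro` is in `box q ri`** -/
def FirstIn (k ri ro h : ℕ) : Prop := ∃ n, eN T xS ω q r k ≤ n ∧ n < xN T xS ω q r k ∧
  gN T xS ω n ∈ box q ri ∧ Near T xS ω q r k h n ∧
  ∀ m, eN T xS ω q r k ≤ m → m < n → ¬ (gN T xS ω m ∈ box q ro ∧ Near T xS ω q r k h m)

/-- at some time of the excursion `k` the tip is in `box q rb`, not in `box q ra`, and its distance
to the old walls is in `(h, 2 h]` -/
def Pass (k ra rb h : ℕ) : Prop := ∃ n, eN T xS ω q r k ≤ n ∧ n < xN T xS ω q r k ∧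
  gN T xS ω n ∈ box q rb ∧ gN T xS ω n ∉ box q ra ∧ ¬ Near T xS ω q r k h n ∧
  Near T xS ω q r k (2 * h) n

/-- a piece of extent `≥ l` of the excursion `k` is glued (at scale `h`) to the old walls -/
def Glued (k r2 h l : ℕ) : Prop := ∃ n1 n2, eN T xS ω q r k ≤ n1 ∧ n1 ≤ n2 ∧
  n2 < xN T xS ω q r k ∧
  (∀ n, n1 ≤ n → n ≤ n2 → gN T xS ω n ∈ box q r2 ∧ Near T xS ω q r k h n) ∧
  l ≤ dn (gN T xS ω n1) (gN T xS ω n2)

end

/-- **T1**: the first touching in a box does not take place at macroscopic distance from the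
boundary of the box. -/
def T1P : Prop :=
  ∀ c δ d ζ ε : ℝ, 0 < c → 0 < δ → 0 < d → 0 < ζ → 0 < ε → ∃ η0 : ℝ, 0 < η0 ∧
  ∀ η : ℝ, 0 < η → η ≤ η0 → ∃ R0 : ℕ, ∀ R : ℕ, R0 ≤ R →
  ∀ T : Temp, Fits T R → ∀ (xS : ℤ) (q : Pt) (r r1 ri ro k : ℕ), c * R ≤ r → r ≤ R →
  (16 * r : ℤ) ≤ |q.1 - xS| → r ≤ ri → (ri : ℝ) + ζ * R ≤ ro → (ro : ℝ) + δ * R ≤ r1 →
  r1 + 3 ≤ 2 * r →
  Pr T.V (fun ω => SepN T xS ω q r k r1 ⌊d * R⌋₊ ∧ FirstIn T xS ω q r k ri ro ⌊η * R⌋₊) ≤ ε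

open Classical in
/-- **COUNT**: the number of annuli which contain a point of the excursion at the height `(h, 2 h]`
is bounded in mean, uniformly in the number of annuli. -/
def CountP : Prop :=
  ∀ c δ d : ℝ, 0 < c → 0 < δ → 0 < d → ∃ C : ℝ, 0 ≤ C ∧ ∀ m : ℕ, 1 ≤ m → ∃ η0 : ℝ, 0 < η0 ∧
  ∀ η : ℝ, 0 < η → η ≤ η0 → ∃ R0 : ℕ, ∀ R : ℕ, R0 ≤ R →
  ∀ T : Temp, Fits T R → ∀ (xS : ℤ) (q : Pt) (r r1 k : ℕ) (ρ : ℕ → ℕ), c * R ≤ r → r ≤ R →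
  (16 * r : ℤ) ≤ |q.1 - xS| → r ≤ ρ 0 → (∀ i < m, (ρ i : ℝ) + δ / (2 * m) * R ≤ ρ (i + 1)) →
  (ρ m : ℝ) + δ / 4 * R ≤ r1 → r1 + 3 ≤ 2 * r →
  Ex T.V (fun ω => if SepN T xS ω q r k r1 ⌊d * R⌋₊ then
    (((Finset.range m).filter (fun i =>
      Pass T xS ω q r k (ρ i) (ρ (i + 1)) ⌊η * R⌋₊)).card : ℝ) else 0) ≤ C

/-- **US** (no macroscopic gluing): a piece of the excursion of macroscopic extent does not stay near
the old walls. -/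
def US : Prop :=
  ∀ c δ d l ε : ℝ, 0 < c → 0 < δ → 0 < d → 0 < l → 0 < ε → ∃ η0 : ℝ, 0 < η0 ∧
  ∀ η : ℝ, 0 < η → η ≤ η0 → ∃ R0 : ℕ, ∀ R : ℕ, R0 ≤ R →
  ∀ T : Temp, Fits T R → ∀ (xS : ℤ) (q : Pt) (r r1 r2 k : ℕ), c * R ≤ r → r ≤ R →
  (16 * r : ℤ) ≤ |q.1 - xS| → r ≤ r2 → (r2 : ℝ) + δ * R ≤ r1 → r1 + 3 ≤ 2 * r →
  Pr T.V (fun ω => SepN T xS ω q r k r1 ⌊d * R⌋₊ ∧
    Glued T xS ω q r k r2 ⌊η * R⌋₊ ⌊l * R⌋₊) ≤ ε

end Vale.Agent.P155.NT276
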