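import Vale.Agent.P155.NT276.Props
import Vale.Agent.P155.NT905.Step
import Vale.Agent.P155.S743.Bump
import Vale.Agent.P155.NT426.Side

/-!
# P155, NT: the visit bound in the form which is used for `CountP`
-/

namespace Vale.Agent.P155.NT276

open Finset Vale.Agent.P155 T802 T905 J NT Function Skel NT802 NT905

/-- `H` at the beginning of the excursion (`b = false`) or `1 - H` (`b = true`) -/
noncomputable def Gb (T : Temp) (xS : ℤ) (q : Pt) (r k : ℕ) (b : Bool) (ω : Conf) (y : Pt) : ℝ :=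
  if b then 1 - (tE T.V xS q r k).toStop.Hf ω y else (tE T.V xS q r k).toStop.Hf ω y

/-- the walls on which `Gb` vanishes -/
def Pb (T : Temp) (xS : ℤ) (q : Pt) (r k : ℕ) (b : Bool) (ω : Conf) (a : Pt) : Prop :=
  if b then surr ω ((tE T.V xS q r k).toStop.L ω) a else ¬ surr ω ((tE T.V xS q r k).toStop.L ω) a

open Classical in
/-- **VBC**: visit bound at one macroscopic scale, the far term is linear in the bump. -/
def VBC : Prop := ∃ K : ℕ, 16 ≤ K ∧ ∀ c : ℝ, 0 < c → ∃ A : ℝ, 0 ≤ A ∧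
  ∀ η ε : ℝ, 0 < η → 0 < ε → ∃ R0 : ℕ, ∀ R : ℕ, R0 ≤ R → ∀ T : Temp, Fits T R →
  ∀ (xS : ℤ) (q : Pt) (r k : ℕ), c * R ≤ r → r ≤ R → (16 * r : ℤ) ≤ |q.1 - xS| →
  ∃ Nb : Conf → ℝ, (∀ ω ∈ DD T.V, 0 ≤ Nb ω) ∧ Ex T.V Nb ≤ A ∧
  ∀ (x : Pt) (κ : ℕ) (b : Bool) (Dom : Conf → Prop), η * R ≤ κ → 400 ≤ κ →
    dn q x + 8 * K * κ + 4 ≤ 2 * r → At (tE T.V xS q r k) Dom →
    (∀ ω ∈ DD T.V, Dom ω → (tE T.V xS q r k).N ω < Tm.M T.V xS ω ∧
      K * κ < dF (ON T xS ω q r k) x ∧ dF (ON T xS ω q r k) x ≤ 8 * K * κ) →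
    Pr T.V (fun ω => Dom ω ∧ ∃ n, eN T xS ω q r k ≤ n ∧ n < xN T xS ω q r k ∧
      gN T xS ω n ∈ box x (3 * κ)) ≤
      A * Ex T.V (fun ω => if Dom ω then
        ∑ y ∈ box x κ, S743.bump κ x y * Gb T xS q r k b ω y else 0) + ε +
      Ex T.V (fun ω => if Dom ω then
        Nb ω * ∑ y ∈ box x κ, S743.bump κ x y * S743.pot (ON T xS ω q r k)
          (fun z => if dn q z ≤ 4 * r then ((r : ℝ) ^ 2)⁻¹ else 0) y else 0)

end Vale.Agent.P155.NT276
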